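import Vale.Agent.P076.H618.Bump

/-!
# Kernel bounds for the tensor bumps
-/

open MeasureTheory Complex FourierTransform Filter Topology Set
open scoped ENNReal NNReal ContDiff

namespace Vale.Agent.P076.H618

open Vale.Agent.P076 Vale.Agent.P076.H791 Vale.Agent.P076.R2.H45

variable {n : ℕ}

lemma four_pow (k : ℕ) : (4 : ℝ) ^ k = 2 ^ k * 2 ^ k := by rw [← mul_pow]; norm_num

lemma ker_Vs (i : Fin n) (k : ℕ) (z : E n) (t : ℝ) : Ker (Vs i k) z t = ∏ j, I1 (fj i j) k (z j) t :=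
  ker_tensor (fun j => fj i j) k z t

lemma I1_fj_triv (i j : Fin n) (k : ℕ) (z t : ℝ) : ‖I1 (fj i j) k z t‖ ≤ 2 ^ k * 8 :=
  I1_triv (fj_nonneg i j) (fj_le_one i j) (fun _ h => fj_zero i j h) k z t

lemma ker_le (i j : Fin n) (k : ℕ) (z : E n) (t : ℝ) :
    ‖Ker (Vs i k) z t‖ ≤ ‖I1 (fj i j) k (z j) t‖ * (2 ^ k * 8) ^ (n - 1) := by
  rw [ker_Vs]
  have h1 := norm_prod_le (fun j => I1 (fj i j) k (z j) t) (fun j => I1_fj_triv i j k (z j) t) j
  rwa [Fintype.card_fin] at h1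

lemma exists_coord (hn : 0 < n) (z : E n) : ∃ j, ‖z‖ ≤ n * |z j| := by
  have : Nonempty (Fin n) := ⟨⟨0, hn⟩⟩
  obtain ⟨j, -, hj⟩ := Finset.exists_max_image Finset.univ (fun j => |z j|) Finset.univ_nonempty
  refine ⟨j, (norm_le_of_coord (abs_nonneg (z j)) fun i => hj i (Finset.mem_univ i)).trans ?_⟩
  have h1 : (1 : ℝ) ≤ n := by exact_mod_cast hn
  rw [Real.sqrt_le_left (by positivity), mul_pow]
  have h2 : 0 ≤ |z j| ^ 2 := by positivity
  have h3 : (n : ℝ) ≤ (n : ℝ) ^ 2 := by nlinarith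
  exact mul_le_mul_of_nonneg_right h3 h2

lemma fj_nsp (i j : Fin n) : ∃ C : ℝ, 0 ≤ C ∧ ∀ (k : ℕ) (z t m : ℝ), 0 < m → 4 ^ k * |t| ≤ 2 * m →
    (∀ r ∈ tsupport (fj i j), m ≤ |2 ^ k * z - 2 * (4 ^ k * t) * r|) →
      ‖I1 (fj i j) k z t‖ * m ^ (n + 1) ≤ 2 ^ k * C := by
  have hc : ContDiff ℝ ∞ (fj i j) := by
    unfold fj
    split_ifs
    · exact contDiff_sh
    · exact b4.contDiff
  have hs : HasCompactSupport (fj i j) := by
    unfold fj
    split_ifs
    · exact hasCompactSupport_sh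
    · exact b4.hasCompactSupport
  obtain ⟨C, hC0, hC⟩ := H40.nsp_real (fj i j) hc hs (n + 1) 2
  refine ⟨C, hC0, fun k z t m hm ht hr => ?_⟩
  have h1 := hC (2 ^ k * z) (4 ^ k * t) m hm (by rwa [abs_mul, abs_of_pos (by positivity : (0:ℝ) < 4 ^ k)]) hr
  rw [I1_scale, norm_mul, Complex.norm_real, Real.norm_eq_abs, abs_of_pos (by positivity), mul_assoc]
  refine mul_le_mul_of_nonneg_left ?_ (by positivity)
  rwa [le_div_iff₀ (by positivity)] at h1

theorem kb (i : Fin n) : ∃ A₀ C₀ : ℝ, KB (Vs i) A₀ C₀ := by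
  have hn : 0 < n := Fin.pos i
  have hn1 : (1 : ℝ) ≤ n := by exact_mod_cast hn
  choose Cj hCj0 hCj using fun j => fj_nsp i j
  set Cs : ℝ := ∑ j, Cj j with hCs
  have hCs0 : 0 ≤ Cs := Finset.sum_nonneg fun j _ => hCj0 j
  have hCjs : ∀ j, Cj j ≤ Cs := fun j => Finset.single_le_sum (fun j _ => hCj0 j) (Finset.mem_univ j)
  set C₀ : ℝ := 1 + 8 ^ (n - 1) * (2 ^ (n + 1) * Cs) + 8 ^ (n - 1) * (8 * 2 ^ (n + 1)) +
    8 ^ (n - 1) * ((4 * n) ^ (n + 1) * Cs) with hC₀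
  have hq1 : 0 ≤ 8 ^ (n - 1) * (2 ^ (n + 1) * Cs) := by positivity
  have hq2 : 0 ≤ (8 : ℝ) ^ (n - 1) * (8 * 2 ^ (n + 1)) := by positivity
  have hq3 : 0 ≤ 8 ^ (n - 1) * ((4 * n) ^ (n + 1) * Cs) := by positivity
  have hpow : ∀ k : ℕ, (2 ^ k : ℝ) * (2 ^ k) ^ (n - 1) = (2 ^ k) ^ n := fun k => by
    rw [← pow_succ', Nat.sub_add_cancel hn]
  refine ⟨16 * n, C₀, ⟨by linarith, by linarith, fun k => ?_, fun k => (Vs_cont i k).measurable,
    fun k η => Vs_nonneg i k η, fun k η => Vs_le_one i k η, fun k η => Vs_supp i k η, ?_, ?_⟩⟩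
  · exact integrable_of_supp (Vs_cont i k) (by positivity : (0:ℝ) ≤ 2 ^ (k + 2)) fun η hη j => Vs_supp i k η hη j
  · intro k z t hz
    have h2k : (0 : ℝ) < 2 ^ k := by positivity
    rcases eq_or_ne t 0 with rfl | ht
    · rw [abs_zero, mul_zero, zero_pow (by omega), mul_zero]
      positivity
    have ht0 : 0 < |t| := abs_pos.2 ht
    set m : ℝ := 4 ^ k * |t| / 2 with hm
    have hm0 : 0 < m := by positivity
    have hzi : |z i| ≤ ‖z‖ := abs_le_norm z i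
    have hz2 : 2 ^ k * |z i| ≤ m := by
      have h1 : 16 * ‖z‖ ≤ |t| * 2 ^ k := by
        have := norm_nonneg z
        nlinarith
      rw [hm, four_pow]
      nlinarith
    have h1 : ‖I1 (fj i i) k (z i) t‖ * m ^ (n + 1) ≤ 2 ^ k * Cs := by
      refine (hCj i k (z i) t m hm0 (by rw [hm]; linarith) fun r hr => ?_).trans
        (mul_le_mul_of_nonneg_left (hCjs i) h2k.le)
      have hr' : r ∈ tsupport sh := by
        have e : fj i i = sh := by unfold fj; rw [if_pos rfl]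
        rwa [e] at hr
      have h3 := (tsupport_sh hr').1
      have h4 : |2 * (4 ^ k * t) * r| ≥ 2 * m := by
        rw [abs_mul, abs_mul, abs_mul, abs_of_pos (by norm_num : (0:ℝ) < 2),
          abs_of_pos (by positivity : (0:ℝ) < 4 ^ k), hm]
        have h5 : 0 ≤ 4 ^ k * |t| := by positivity
        nlinarith
      have h6 : |2 ^ k * z i| ≤ m := by rwa [abs_mul, abs_of_pos h2k]
      have h7 := abs_sub_abs_le_abs_sub (2 * (4 ^ k * t) * r) (2 ^ k * z i)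
      rw [abs_sub_comm] at h7
      linarith
    have h8 : (4 ^ k * |t|) ^ (n + 1) = 2 ^ (n + 1) * m ^ (n + 1) := by
      rw [← mul_pow, hm]
      congr 1
      ring
    calc ‖Ker (Vs i k) z t‖ * (4 ^ k * |t|) ^ (n + 1)
        ≤ (‖I1 (fj i i) k (z i) t‖ * (2 ^ k * 8) ^ (n - 1)) * (4 ^ k * |t|) ^ (n + 1) :=
          mul_le_mul_of_nonneg_right (ker_le i i k z t) (by positivity)
      _ = (2 ^ k * 8) ^ (n - 1) * 2 ^ (n + 1) * (‖I1 (fj i i) k (z i) t‖ * m ^ (n + 1)) := by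
          rw [h8]; ring
      _ ≤ (2 ^ k * 8) ^ (n - 1) * 2 ^ (n + 1) * (2 ^ k * Cs) :=
          mul_le_mul_of_nonneg_left h1 (by positivity)
      _ = 8 ^ (n - 1) * (2 ^ (n + 1) * Cs) * (2 ^ k * (2 ^ k) ^ (n - 1)) := by
          rw [mul_pow]; ring
      _ = 8 ^ (n - 1) * (2 ^ (n + 1) * Cs) * (2 ^ k) ^ n := by rw [hpow]
      _ ≤ C₀ * (2 ^ k) ^ n := by
          refine mul_le_mul_of_nonneg_right ?_ (by positivity)
          linarith
  · intro k z t hz
    have h2k : (0 : ℝ) < 2 ^ k := by positivity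
    obtain ⟨j, hj⟩ := exists_coord hn z
    have htriv : ‖Ker (Vs i k) z t‖ ≤ 8 ^ (n - 1) * 8 * (2 ^ k) ^ n := by
      calc ‖Ker (Vs i k) z t‖ ≤ ‖I1 (fj i j) k (z j) t‖ * (2 ^ k * 8) ^ (n - 1) := ker_le i j k z t
        _ ≤ (2 ^ k * 8) * (2 ^ k * 8) ^ (n - 1) :=
            mul_le_mul_of_nonneg_right (I1_fj_triv i j k _ _) (by positivity)
        _ = 8 ^ (n - 1) * 8 * (2 ^ k * (2 ^ k) ^ (n - 1)) := by rw [mul_pow]; ring
        _ = _ := by rw [hpow]
    rcases le_or_gt (2 ^ k * ‖z‖) 1 with hle | hgt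
    · calc ‖Ker (Vs i k) z t‖ * (1 + 2 ^ k * ‖z‖) ^ (n + 1)
          ≤ (8 ^ (n - 1) * 8 * (2 ^ k) ^ n) * 2 ^ (n + 1) := by
            gcongr
            linarith
        _ = 8 ^ (n - 1) * (8 * 2 ^ (n + 1)) * (2 ^ k) ^ n := by ring
        _ ≤ C₀ * (2 ^ k) ^ n := by
            refine mul_le_mul_of_nonneg_right ?_ (by positivity)
            linarith
    · set m : ℝ := 2 ^ k * ‖z‖ / (2 * n) with hm
      have hm0 : 0 < m := by positivity
      have hm2 : 2 ^ k * ‖z‖ = 2 * n * m := by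
        rw [hm]; field_simp
      have ht : 4 ^ k * |t| * 8 ≤ m := by
        rw [hm, le_div_iff₀ (by positivity), four_pow]
        nlinarith
      have h1 : ‖I1 (fj i j) k (z j) t‖ * m ^ (n + 1) ≤ 2 ^ k * Cs := by
        refine (hCj j k (z j) t m hm0 (by have := abs_nonneg t; nlinarith) fun r hr => ?_).trans
          (mul_le_mul_of_nonneg_left (hCjs j) h2k.le)
        have hr4 : |r| ≤ 4 := by
          unfold fj at hr
          split_ifs at hr
          · exact (tsupport_sh hr).2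
          · exact tsupport_b4 hr
        have h4 : |2 * (4 ^ k * t) * r| ≤ m := by
          rw [abs_mul, abs_mul, abs_mul, abs_of_pos (by norm_num : (0:ℝ) < 2),
            abs_of_pos (by positivity : (0:ℝ) < 4 ^ k)]
          have h5 : 0 ≤ 4 ^ k * |t| := by positivity
          nlinarith
        have h6 : 2 * m ≤ |2 ^ k * z j| := by
          rw [abs_mul, abs_of_pos h2k]
          have h7 : 2 ^ k * ‖z‖ ≤ 2 ^ k * (n * |z j|) := mul_le_mul_of_nonneg_left hj h2k.le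
          rw [hm2] at h7
          have h8 : n * (2 * m) ≤ n * (2 ^ k * |z j|) := by linarith
          exact le_of_mul_le_mul_left h8 (by linarith)
        have h7 := abs_sub_abs_le_abs_sub (2 ^ k * z j) (2 * (4 ^ k * t) * r)
        linarith
      have h8 : (1 + 2 ^ k * ‖z‖) ^ (n + 1) ≤ (4 * n) ^ (n + 1) * m ^ (n + 1) := by
        rw [← mul_pow]
        refine pow_le_pow_left₀ (by positivity) ?_ _
        linarith
      calc ‖Ker (Vs i k) z t‖ * (1 + 2 ^ k * ‖z‖) ^ (n + 1)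
          ≤ (‖I1 (fj i j) k (z j) t‖ * (2 ^ k * 8) ^ (n - 1)) * ((4 * n) ^ (n + 1) * m ^ (n + 1)) :=
            mul_le_mul (ker_le i j k z t) h8 (by positivity) (by positivity)
        _ = (2 ^ k * 8) ^ (n - 1) * (4 * n) ^ (n + 1) * (‖I1 (fj i j) k (z j) t‖ * m ^ (n + 1)) := by ring
        _ ≤ (2 ^ k * 8) ^ (n - 1) * (4 * n) ^ (n + 1) * (2 ^ k * Cs) :=
            mul_le_mul_of_nonneg_left h1 (by positivity)
        _ = 8 ^ (n - 1) * ((4 * n) ^ (n + 1) * Cs) * (2 ^ k * (2 ^ k) ^ (n - 1)) := by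
            rw [mul_pow]; ring
        _ = 8 ^ (n - 1) * ((4 * n) ^ (n + 1) * Cs) * (2 ^ k) ^ n := by rw [hpow]
        _ ≤ C₀ * (2 ^ k) ^ n := by
            refine mul_le_mul_of_nonneg_right ?_ (by positivity)
            linarith

end Vale.Agent.P076.H618
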