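import Vale.Agent.P076.H618.Sum
import Vale.Agent.P076.H618.BumpK

/-!
# The single-scale estimate gives the maximal principle
-/

open MeasureTheory Complex FourierTransform Filter Topology Set
open scoped ENNReal NNReal

namespace Vale.Agent.P076.H618

open Vale.Agent.P076 Vale.Agent.P076.H791 Vale.Agent.P076.R2.H45 Vale.Agent.P076.H263

variable {n : ℕ} {s : E n → ℝ} {h : E n → ℂ} {A : Set (E n)} {r : ℕ}

/-- the low frequencies -/
noncomputable def Vl (η : E n) : ℝ := ∏ j, b4 (η j)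

lemma Vl_nonneg (η : E n) : 0 ≤ Vl η := Finset.prod_nonneg fun _ _ => b4.nonneg

lemma Vl_cont : Continuous (Vl (n := n)) := by
  unfold Vl
  refine continuous_finsetProd _ fun j _ => b4.continuous.comp ?_
  fun_prop

lemma Vl_int : Integrable (Vl (n := n)) := by
  refine integrable_of_supp Vl_cont (R := 4) (by norm_num) fun η hη j => ?_
  by_contra hc
  exact hη (Finset.prod_eq_zero (Finset.mem_univ j) (b4_zero (not_le.1 hc).le))

lemma QE_low (r : ℕ) : ∃ C : ℝ≥0, ∀ (A : Set (E n)) (s : E n → ℝ) (h : E n → ℂ), Adm r A s h →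
    QE Vl s h A ≤ C * volume A := by
  refine ⟨(∫ η : E n, Vl η).toNNReal * (volume (Metric.ball (0 : E n) r)).toNNReal, fun A s h a => ?_⟩
  have h1 : QE Vl s h A ≤ (∫⁻ η : E n, ENNReal.ofReal (Vl η)) * volume A ^ 2 := by
    unfold QE
    rw [← lintegral_mul_const' _ _ (by
      have := a.vol
      finiteness)]
    refine lintegral_mono fun η => ?_
    gcongr
    rw [← ofReal_norm, ← ENNReal.ofReal_toReal a.vol.ne]
    exact ENNReal.ofReal_le_ofReal (norm_Phi_le a η)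
  rw [← ofReal_integral_eq_lintegral_ofReal Vl_int (Eventually.of_forall Vl_nonneg)] at h1
  refine h1.trans ?_
  have h2 : volume A ≤ volume (Metric.ball (0 : E n) r) := measure_mono a.sub
  rw [ENNReal.coe_mul, ENNReal.coe_toNNReal measure_ball_lt_top.ne, sq, mul_assoc]
  change ENNReal.ofReal _ * _ ≤ ENNReal.ofReal _ * _
  gcongr

/-- the weight is dominated by the bumps -/
lemma weight_le {σ : ℝ} (hσ : 0 < σ) (η : E n) : (wH n σ η)⁻¹ ≤ ENNReal.ofReal (Vl η) +
    ∑ i : Fin n, ∑' k : ℕ, ENNReal.ofReal ((2 ^ k : ℝ) ^ (-(2 * σ))) * ENNReal.ofReal (Vs i k η) := by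
  have e1 : wH n σ η = ENNReal.ofReal ((1 + (2 * Real.pi * ‖η‖) ^ 2) ^ σ) := by
    have e2 : nrm (WithLp.ofLp ((2 * Real.pi) • η)) = 2 * Real.pi * ‖η‖ := by
      rw [nrm_eq]
      change ‖(2 * Real.pi) • η‖ = _
      rw [norm_smul, Real.norm_eq_abs, abs_of_pos (by positivity)]
    rw [← e2]
    rfl
  rw [e1, ← ENNReal.ofReal_inv_of_pos (by positivity)]
  by_cases hall : ∀ j, |η j| < 1
  · have h1 : Vl η = 1 := Finset.prod_eq_one fun j _ => b4_one ((hall j).le.trans (by norm_num))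
    rw [h1]
    refine le_trans (ENNReal.ofReal_le_ofReal ?_) le_self_add
    refine inv_le_one_of_one_le₀ (Real.one_le_rpow ?_ hσ.le)
    have : 0 ≤ (2 * Real.pi * ‖η‖) ^ 2 := by positivity
    linarith
  · push Not at hall
    obtain ⟨j₀, hj₀⟩ := hall
    obtain ⟨i, -, hi⟩ := Finset.exists_max_image Finset.univ (fun j => |η j|) ⟨j₀, Finset.mem_univ j₀⟩
    have hi1 : 1 ≤ |η i| := hj₀.trans (hi j₀ (Finset.mem_univ _))
    obtain ⟨k, hk1, hk2⟩ := exists_nat_pow_near hi1 (by norm_num : (1 : ℝ) < 2)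
    have h2k : (0 : ℝ) < 2 ^ k := by positivity
    have hV : Vs i k η = 1 := by
      refine Finset.prod_eq_one fun j _ => ?_
      have hj : |((2 : ℝ) ^ k)⁻¹ * η j| ≤ 2 := by
        rw [abs_mul, abs_of_pos (by positivity), ← div_eq_inv_mul, div_le_iff₀ h2k]
        have := hi j (Finset.mem_univ _)
        simp only at this
        rw [pow_succ] at hk2
        linarith
      unfold fj
      split_ifs with hji
      · subst hji
        refine sh_one ?_ hj
        rw [abs_mul, abs_of_pos (by positivity), ← div_eq_inv_mul, le_div_iff₀ h2k, one_mul]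
        exact hk1
      · exact b4_one hj
    refine le_trans ?_ le_add_self
    refine le_trans ?_ (Finset.single_le_sum (f := fun i => ∑' k : ℕ,
      ENNReal.ofReal ((2 ^ k : ℝ) ^ (-(2 * σ))) * ENNReal.ofReal (Vs i k η)) (fun _ _ => zero_le)
      (Finset.mem_univ i))
    refine le_trans ?_ (ENNReal.le_tsum k)
    rw [hV, ENNReal.ofReal_one, mul_one]
    refine ENNReal.ofReal_le_ofReal ?_
    rw [Real.rpow_neg h2k.le, Real.rpow_mul h2k.le]
    refine inv_anti₀ (by positivity) (Real.rpow_le_rpow (by positivity) ?_ hσ.le)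
    rw [Real.rpow_ofNat]
    have h3 : (2 : ℝ) ^ k ≤ ‖η‖ := hk1.trans (abs_le_norm η i)
    have h4 : ‖η‖ ≤ 2 * Real.pi * ‖η‖ := by
      have := Real.pi_gt_three
      have := norm_nonneg η
      nlinarith
    have h5 : ((2 : ℝ) ^ k) ^ 2 ≤ (2 * Real.pi * ‖η‖) ^ 2 :=
      pow_le_pow_left₀ h2k.le (h3.trans h4) 2
    linarith

lemma measurable_wH (n : ℕ) (σ : ℝ) : Measurable (wH n σ) := measurable_wt (measurable_weight σ)

lemma one_le_wH {σ : ℝ} (hσ : 0 ≤ σ) (η : E n) : 1 ≤ wH n σ η :=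
  ENNReal.one_le_ofReal.2 (one_le_weight hσ _)

/-- TT* for times in `[0,1)` -/
theorem unit_times {σ : ℝ} (hσ : 0 < σ) (hS : SLat n σ) (r : ℕ) : ∃ C : ℝ≥0,
    ∀ (A : Set (E n)) (s : E n → ℝ) (h : E n → ℂ), Adm r A s h → (∀ x ∈ A, 0 ≤ s x ∧ s x < 1) →
      ∫⁻ η, (wH n σ η)⁻¹ * ‖Phi A s h η‖ₑ ^ 2 ≤ C * volume A := by
  obtain ⟨C, δ, hC, hδ, hδ1, hδσ, hN⟩ := normal hσ hS
  obtain ⟨C', hC', hsm⟩ := small hN hC hδ hδ1
  obtain ⟨Cl, hCl⟩ := QE_low (n := n) r
  have hex : ∀ i : Fin n, ∃ C' : ℝ≥0, ∀ (A : Set (E n)) (s : E n → ℝ) (h : E n → ℂ), Adm r A s h →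
      (∀ x ∈ A, 0 ≤ s x ∧ s x < 1) → ∀ K : ℕ,
        ∑ k ∈ Finset.range K, ENNReal.ofReal ((2 ^ k : ℝ) ^ (-(2 * σ))) * QE (Vs i k) s h A ≤
          C' * volume A := by
    intro i
    obtain ⟨A₀, C₀, hK⟩ := kb i
    obtain ⟨Cc, hCc⟩ := cube_step hδ hC' hsm hK
    exact scales hδ hδσ hσ hK hCc r
  choose Cs hCs using hex
  refine ⟨Cl + ∑ i, Cs i, fun A s h a hA => ?_⟩
  have hmi : ∀ (i : Fin n) (k : ℕ), Measurable fun η => ENNReal.ofReal ((2 ^ k : ℝ) ^ (-(2 * σ))) *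
      (ENNReal.ofReal (Vs i k η) * ‖Phi A s h η‖ₑ ^ 2) := fun i k =>
    (measurable_QE (Vs_cont i k).measurable a).const_mul _
  calc ∫⁻ η, (wH n σ η)⁻¹ * ‖Phi A s h η‖ₑ ^ 2
      ≤ ∫⁻ η, (ENNReal.ofReal (Vl η) * ‖Phi A s h η‖ₑ ^ 2 + ∑ i : Fin n, ∑' k : ℕ,
          ENNReal.ofReal ((2 ^ k : ℝ) ^ (-(2 * σ))) * (ENNReal.ofReal (Vs i k η) * ‖Phi A s h η‖ₑ ^ 2)) := by
        refine lintegral_mono fun η => ?_
        refine (mul_le_mul_left (weight_le hσ η) _).trans (le_of_eq ?_)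
        rw [add_mul, Finset.sum_mul]
        congr 1
        refine Finset.sum_congr rfl fun i _ => ?_
        rw [← ENNReal.tsum_mul_right]
        exact tsum_congr fun k => mul_assoc _ _ _
    _ = QE Vl s h A + ∑ i : Fin n, ∑' k : ℕ, ENNReal.ofReal ((2 ^ k : ℝ) ^ (-(2 * σ))) *
          QE (Vs i k) s h A := by
        rw [lintegral_add_left (measurable_QE Vl_cont.measurable a), lintegral_finsetSum]
        · congr 1
          refine Finset.sum_congr rfl fun i _ => ?_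
          rw [lintegral_tsum fun k => (hmi i k).aemeasurable]
          refine tsum_congr fun k => ?_
          rw [lintegral_const_mul' _ _ ENNReal.ofReal_ne_top]
          rfl
        · exact fun i _ => Measurable.tsum fun k => hmi i k
    _ ≤ Cl * volume A + ∑ i : Fin n, Cs i * volume A := by
        refine add_le_add (hCl A s h a) (Finset.sum_le_sum fun i _ => ?_)
        rw [ENNReal.tsum_eq_iSup_nat]
        exact iSup_le fun K => hCs i A s h a hA K
    _ = _ := by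
        rw [← Finset.sum_mul, ← add_mul]
        push_cast
        rfl

lemma Phi_fract {A' : Set (E n)} {u : ℤ} (hA' : MeasurableSet A') (hu : ∀ x ∈ A', ⌊s x⌋ = u)
    (h : E n → ℂ) (η : E n) :
    ‖Phi A' s h η‖ₑ = ‖Phi A' (fun x => Int.fract (s x)) h η‖ₑ := by
  have e1 : Phi A' s h η = cexp (((-(2 * Real.pi * u * ‖η‖ ^ 2) : ℝ) : ℂ) * I) *
      Phi A' (fun x => Int.fract (s x)) h η := by
    unfold Phi
    rw [← integral_const_mul]
    refine setIntegral_congr_fun hA' fun x hx => ?_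
    simp only
    have e2 : s x = u + Int.fract (s x) := by
      rw [← hu x hx]
      exact (Int.floor_add_fract (s x)).symm
    have e3 : ph x (s x) 0 η = cexp (((-(2 * Real.pi * u * ‖η‖ ^ 2) : ℝ) : ℂ) * I) *
        ph x (Int.fract (s x)) 0 η := by
      conv_lhs => rw [e2]
      unfold ph
      rw [← Complex.exp_add]
      congr 1
      push_cast
      ring
    rw [e3]
    ring
  rw [e1, enorm_mul]
  have e4 : ‖cexp (((-(2 * Real.pi * u * ‖η‖ ^ 2) : ℝ) : ℂ) * I)‖ₑ = 1 := by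
    rw [← ofReal_norm, Complex.norm_exp_ofReal_mul_I, ENNReal.ofReal_one]
  rw [e4, one_mul]

lemma sq_sum_le {ι : Type*} (T : Finset ι) (f : ι → ℂ) :
    ‖∑ i ∈ T, f i‖ₑ ^ 2 ≤ T.card * ∑ i ∈ T, ‖f i‖ₑ ^ 2 := by
  have h1 : ‖∑ i ∈ T, f i‖ ^ 2 ≤ T.card * ∑ i ∈ T, ‖f i‖ ^ 2 :=
    (pow_le_pow_left₀ (norm_nonneg _) (norm_sum_le _ _) 2).trans sq_sum_le_card_mul_sum_sq
  have e1 : ∀ z : ℂ, ‖z‖ₑ ^ 2 = ENNReal.ofReal (‖z‖ ^ 2) := fun z => by
    rw [ENNReal.ofReal_pow (norm_nonneg _), ofReal_norm]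
  simp_rw [e1]
  rw [← ENNReal.ofReal_sum_of_nonneg fun i _ => by positivity, ← ENNReal.ofReal_natCast,
    ← ENNReal.ofReal_mul (by positivity)]
  exact ENNReal.ofReal_le_ofReal h1

/-- **TT\*** -/
theorem TT_of_SLat {σ : ℝ} (hσ : 0 < σ) (hS : SLat n σ) (r : ℕ) :
    ∃ S : ℝ≥0, TTr r (fun η => (wH n σ η)⁻¹) S := by
  obtain ⟨C, hC⟩ := unit_times hσ hS (r + 1)
  refine ⟨(Finset.Icc (-(r : ℤ)) r).card * C, fun A s h a => ?_⟩
  set T : Finset ℤ := Finset.Icc (-(r : ℤ)) r with hT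
  set c : E n → ℤ := fun x => ⌊s x⌋ with hc
  have hcm : Measurable c := Int.measurable_floor.comp a.ms
  have hcT : ∀ x ∈ A, c x ∈ T := by
    intro x _
    have h1 := abs_le.1 (a.bs x)
    rw [hT, Finset.mem_Icc]
    constructor
    · rw [Int.le_floor]
      push_cast
      exact h1.1
    · have h2 : ((⌊s x⌋ : ℤ) : ℝ) ≤ (r : ℤ) := (Int.floor_le _).trans (by exact_mod_cast h1.2)
      exact_mod_cast h2
  have hcell : ∀ i ∈ T, MeasurableSet (cell A c i) := fun i _ => a.mA.inter (hcm (measurableSet_singleton i))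
  set s' : E n → ℝ := fun x => Int.fract (s x) with hs'
  have hs'm : Measurable s' := measurable_fract.comp a.ms
  have ha' : ∀ i ∈ T, Adm (r + 1) (cell A c i) s' h := by
    intro i hi
    refine ⟨hcell i hi, ?_, hs'm, fun x => ?_, a.mh, a.bh⟩
    · refine (inter_subset_left.trans a.sub).trans (Metric.ball_subset_ball ?_)
      push_cast
      linarith
    · have h1 := Int.fract_nonneg (s x)
      have h2 := (Int.fract_lt_one (s x)).le
      rw [abs_of_nonneg h1]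
      push_cast
      have : (0 : ℝ) ≤ r := Nat.cast_nonneg r
      linarith
  have hw : Measurable fun η => (wH n σ η)⁻¹ := (measurable_wH n σ).inv
  calc ∫⁻ η, (wH n σ η)⁻¹ * ‖Phi A s h η‖ₑ ^ 2
      ≤ ∫⁻ η, (T.card : ℝ≥0∞) * ∑ i ∈ T, (wH n σ η)⁻¹ * ‖Phi (cell A c i) s' h η‖ₑ ^ 2 := by
        refine lintegral_mono fun η => ?_
        rw [Phi_cells a hcell hcT η]
        refine (mul_le_mul_right (sq_sum_le T _) _).trans (le_of_eq ?_)
        rw [mul_left_comm, Finset.mul_sum]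
        congr 1
        refine Finset.sum_congr rfl fun i hi => ?_
        rw [Phi_fract (hcell i hi) (fun x hx => hx.2) h η]
    _ = (T.card : ℝ≥0∞) * ∑ i ∈ T, ∫⁻ η, (wH n σ η)⁻¹ * ‖Phi (cell A c i) s' h η‖ₑ ^ 2 := by
        rw [lintegral_const_mul' _ _ (ENNReal.natCast_ne_top _), lintegral_finsetSum' _ fun i hi => ?_]
        exact (hw.mul ((measurable_Phi (ha' i hi).ms (ha' i hi).mh).enorm.pow_const 2)).aemeasurable
    _ ≤ (T.card : ℝ≥0∞) * ∑ i ∈ T, C * volume (cell A c i) := by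
        gcongr with i hi
        exact hC _ _ _ (ha' i hi) fun x _ => ⟨Int.fract_nonneg _, Int.fract_lt_one _⟩
    _ = (T.card : ℝ≥0∞) * (C * volume A) := by
        rw [← Finset.mul_sum, ← vol_cells hcell hcT]
    _ = _ := by
        push_cast
        ring

/-- **the single-scale estimate gives the maximal principle** -/
theorem MP_of_SLat {σ : ℝ} (hσ : 0 < σ) (hS : SLat n σ) : MP (wH n σ) :=
  MP_of_TT (measurable_wH n σ) (one_le_wH hσ.le) fun r => TT_of_SLat hσ hS r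

theorem stP0 (n : ℕ) (σ : ℝ) : StP0 n σ := fun hσ hS => MP_of_SLat hσ hS

end Vale.Agent.P076.H618
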