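import Vale.Agent.P076.H618.Cube
import Vale.Agent.P076.H40.NSP
import Mathlib.Analysis.Calculus.BumpFunction.Basic
import Mathlib.Analysis.Calculus.BumpFunction.InnerProduct
import Mathlib.MeasureTheory.Integral.Pi

/-!
# Tensor bumps
-/

open MeasureTheory Complex FourierTransform Filter Topology Set
open scoped ENNReal NNReal ContDiff

namespace Vale.Agent.P076.H618

open Vale.Agent.P076 Vale.Agent.P076.H791 Vale.Agent.P076.R2.H45

variable {n : ℕ}

/-- the 1-D factor -/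
noncomputable def I1 (f : ℝ → ℝ) (k : ℕ) (z t : ℝ) : ℂ :=
  ∫ r : ℝ, (f (((2 : ℝ) ^ k)⁻¹ * r) : ℂ) * cexp (2 * Real.pi * I * ((z * r - t * r ^ 2 : ℝ) : ℂ))

lemma I1_scale (f : ℝ → ℝ) (k : ℕ) (z t : ℝ) : I1 f k z t = ((2 ^ k : ℝ) : ℂ) *
    ∫ r : ℝ, (f r : ℂ) * cexp (2 * Real.pi * I * (((2 ^ k * z) * r - (4 ^ k * t) * r ^ 2 : ℝ) : ℂ)) := by
  have h1 := Measure.integral_comp_mul_left (fun r : ℝ => (f r : ℂ) *
    cexp (2 * Real.pi * I * (((2 ^ k * z) * r - (4 ^ k * t) * r ^ 2 : ℝ) : ℂ))) ((2 : ℝ) ^ k)⁻¹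
  rw [inv_inv, abs_of_pos (by positivity), Complex.real_smul] at h1
  rw [← h1, I1]
  refine integral_congr_ae (Eventually.of_forall fun r => ?_)
  simp only
  congr 4
  have e : (4 : ℝ) ^ k = 2 ^ k * 2 ^ k := by rw [← mul_pow]; norm_num
  rw [e]
  field_simp

lemma ker_tensor (f : Fin n → ℝ → ℝ) (k : ℕ) (z : E n) (t : ℝ) :
    Ker (fun η => ∏ j, f j (((2 : ℝ) ^ k)⁻¹ * η j)) z t = ∏ j, I1 (f j) k (z j) t := by
  have h1 : ∀ η : E n, ((∏ j, f j (((2 : ℝ) ^ k)⁻¹ * η j) : ℝ) : ℂ) * ph z t 0 η =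
      ∏ j, ((f j (((2 : ℝ) ^ k)⁻¹ * η j) : ℂ) *
        cexp (2 * Real.pi * I * ((z j * η j - t * (η j) ^ 2 : ℝ) : ℂ))) := by
    intro η
    rw [Finset.prod_mul_distrib, ← Complex.exp_sum, Complex.ofReal_prod]
    congr 1
    unfold ph
    congr 1
    rw [← Finset.mul_sum, zero_mul, Complex.ofReal_zero, sub_zero, ← Complex.ofReal_sum]
    congr 2
    rw [Finset.sum_sub_distrib, EuclideanSpace.norm_sq_eq, PiLp.inner_apply, Finset.mul_sum]
    congr 1
    · refine Finset.sum_congr rfl fun j _ => ?_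
      simp [mul_comm]
    · refine Finset.sum_congr rfl fun j _ => ?_
      rw [Real.norm_eq_abs, sq_abs]
  rw [Ker]
  simp_rw [h1]
  have h2 := (PiLp.volume_preserving_ofLp (Fin n)).integral_comp
    (MeasurableEquiv.toLp 2 (Fin n → ℝ)).symm.measurableEmbedding
    (fun y : Fin n → ℝ => ∏ j, ((f j (((2 : ℝ) ^ k)⁻¹ * y j) : ℂ) *
        cexp (2 * Real.pi * I * ((z j * y j - t * (y j) ^ 2 : ℝ) : ℂ))))
  refine h2.trans ?_
  exact integral_fintype_prod_volume_eq_prod (fun j (r : ℝ) => (f j (((2 : ℝ) ^ k)⁻¹ * r) : ℂ) *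
        cexp (2 * Real.pi * I * ((z j * r - t * r ^ 2 : ℝ) : ℂ)))

/-! ### one-dimensional bumps -/

/-- `1` on `[-2,2]`, supported in `[-4,4]` -/
noncomputable def b4 : ContDiffBump (0 : ℝ) := ⟨2, 4, by norm_num, by norm_num⟩

/-- `1` on `[-1/2,1/2]`, supported in `[-1,1]` -/
noncomputable def b1 : ContDiffBump (0 : ℝ) := ⟨1 / 2, 1, by norm_num, by norm_num⟩

/-- the shell bump -/
noncomputable def sh (r : ℝ) : ℝ := b4 r * (1 - b1 r)

lemma b4_one {r : ℝ} (h : |r| ≤ 2) : b4 r = 1 := by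
  refine b4.one_of_mem_closedBall ?_
  rw [mem_closedBall_zero_iff, Real.norm_eq_abs]
  exact h

lemma b4_zero {r : ℝ} (h : 4 ≤ |r|) : b4 r = 0 := by
  refine b4.zero_of_le_dist ?_
  rw [dist_zero_right, Real.norm_eq_abs]
  exact h

lemma sh_one {r : ℝ} (h1 : 1 ≤ |r|) (h2 : |r| ≤ 2) : sh r = 1 := by
  have h3 : b1 r = 0 := by
    refine b1.zero_of_le_dist ?_
    rw [dist_zero_right, Real.norm_eq_abs]
    exact h1
  rw [sh, b4_one h2, h3]
  norm_num

lemma sh_zero {r : ℝ} (h : |r| ≤ 1 / 2) : sh r = 0 := by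
  have h3 : b1 r = 1 := by
    refine b1.one_of_mem_closedBall ?_
    rw [mem_closedBall_zero_iff, Real.norm_eq_abs]
    exact h
  rw [sh, h3]
  ring

lemma sh_nonneg (r : ℝ) : 0 ≤ sh r := by
  unfold sh
  have h1 : 0 ≤ b4 r := b4.nonneg
  have h2 : b1 r ≤ 1 := b1.le_one
  exact mul_nonneg h1 (by linarith)

lemma sh_le_one (r : ℝ) : sh r ≤ 1 := by
  unfold sh
  have h1 : 0 ≤ b4 r := b4.nonneg
  have h1' : b4 r ≤ 1 := b4.le_one
  have h2 : b1 r ≤ 1 := b1.le_one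
  have h2' : 0 ≤ b1 r := b1.nonneg
  nlinarith

lemma contDiff_sh : ContDiff ℝ ∞ sh := by
  unfold sh
  exact b4.contDiff.mul (contDiff_const.sub b1.contDiff)

lemma tsupport_b4 : tsupport b4 ⊆ {r : ℝ | |r| ≤ 4} := by
  rw [b4.tsupport_eq]
  intro r hr
  rw [mem_closedBall_zero_iff, Real.norm_eq_abs] at hr
  exact hr

lemma tsupport_sh : tsupport sh ⊆ {r : ℝ | 1 / 2 ≤ |r| ∧ |r| ≤ 4} := by
  refine closure_minimal ?_ ?_
  · intro r hr
    constructor
    · by_contra h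
      exact hr (sh_zero (not_le.1 h).le)
    · by_contra h
      refine hr ?_
      rw [sh, b4_zero (not_le.1 h).le, zero_mul]
  · exact (isClosed_le continuous_const continuous_abs).inter (isClosed_le continuous_abs continuous_const)

lemma hasCompactSupport_sh : HasCompactSupport sh := b4.hasCompactSupport.mul_right

/-- the two kinds of factors -/
noncomputable def fj (i j : Fin n) : ℝ → ℝ := if j = i then sh else b4

lemma fj_nonneg (i j : Fin n) (r : ℝ) : 0 ≤ fj i j r := by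
  unfold fj
  split_ifs
  · exact sh_nonneg r
  · exact b4.nonneg

lemma fj_le_one (i j : Fin n) (r : ℝ) : fj i j r ≤ 1 := by
  unfold fj
  split_ifs
  · exact sh_le_one r
  · exact b4.le_one

lemma fj_zero (i j : Fin n) {r : ℝ} (h : 4 ≤ |r|) : fj i j r = 0 := by
  unfold fj
  split_ifs
  · rw [sh, b4_zero h, zero_mul]
  · exact b4_zero h

lemma fj_cont (i j : Fin n) : Continuous (fj i j) := by
  unfold fj
  split_ifs
  · exact contDiff_sh.continuous
  · exact b4.continuous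

/-- the trivial bound for a factor -/
lemma I1_triv {f : ℝ → ℝ} (hf0 : ∀ r, 0 ≤ f r) (hf1 : ∀ r, f r ≤ 1) (hf : ∀ r, 4 ≤ |r| → f r = 0)
    (k : ℕ) (z t : ℝ) : ‖I1 f k z t‖ ≤ 2 ^ k * 8 := by
  rw [I1_scale, norm_mul, Complex.norm_real, Real.norm_eq_abs, abs_of_pos (by positivity)]
  refine mul_le_mul_of_nonneg_left ?_ (by positivity)
  have h1 : ∀ r : ℝ, ‖(f r : ℂ) *
      cexp (2 * Real.pi * I * (((2 ^ k * z) * r - (4 ^ k * t) * r ^ 2 : ℝ) : ℂ))‖ = f r := by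
    intro r
    have e : (2 * Real.pi * I * (((2 ^ k * z) * r - (4 ^ k * t) * r ^ 2 : ℝ) : ℂ)) =
        ((2 * Real.pi * ((2 ^ k * z) * r - (4 ^ k * t) * r ^ 2) : ℝ) : ℂ) * I := by
      push_cast; ring
    rw [norm_mul, e, Complex.norm_exp_ofReal_mul_I, mul_one, Complex.norm_real, Real.norm_eq_abs,
      abs_of_nonneg (hf0 r)]
  calc ‖∫ r : ℝ, (f r : ℂ) *
      cexp (2 * Real.pi * I * (((2 ^ k * z) * r - (4 ^ k * t) * r ^ 2 : ℝ) : ℂ))‖
      = ‖∫ r in Icc (-4 : ℝ) 4, (f r : ℂ) *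
      cexp (2 * Real.pi * I * (((2 ^ k * z) * r - (4 ^ k * t) * r ^ 2 : ℝ) : ℂ))‖ := by
        rw [setIntegral_eq_integral_of_forall_compl_eq_zero]
        intro r hr
        have h2 : 4 ≤ |r| := by
          by_contra h
          exact hr (abs_le.1 (not_le.1 h).le)
        rw [hf r h2]
        simp
    _ ≤ 1 * (volume : Measure ℝ).real (Icc (-4 : ℝ) 4) := by
        refine norm_setIntegral_le_of_norm_le_const ?_ fun r _ => ?_
        · rw [Real.volume_Icc]; exact ENNReal.ofReal_lt_top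
        · rw [h1]; exact hf1 r
    _ = 8 := by
        rw [Measure.real, Real.volume_Icc, ENNReal.toReal_ofReal (by norm_num)]
        norm_num

/-- the shell weights -/
noncomputable def Vs (i : Fin n) (k : ℕ) (η : E n) : ℝ := ∏ j, fj i j (((2 : ℝ) ^ k)⁻¹ * η j)

lemma Vs_nonneg (i : Fin n) (k : ℕ) (η : E n) : 0 ≤ Vs i k η :=
  Finset.prod_nonneg fun j _ => fj_nonneg i j _

lemma Vs_le_one (i : Fin n) (k : ℕ) (η : E n) : Vs i k η ≤ 1 :=
  Finset.prod_le_one (fun j _ => fj_nonneg i j _) fun j _ => fj_le_one i j _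

lemma Vs_cont (i : Fin n) (k : ℕ) : Continuous (Vs i k) := by
  unfold Vs
  refine continuous_finsetProd _ fun j _ => (fj_cont i j).comp ?_
  fun_prop

lemma Vs_supp (i : Fin n) (k : ℕ) (η : E n) (h : Vs i k η ≠ 0) (j : Fin n) : |η j| ≤ 2 ^ (k + 2) := by
  by_contra hc
  refine h (Finset.prod_eq_zero (Finset.mem_univ j) (fj_zero i j ?_))
  rw [abs_mul, abs_of_pos (by positivity), ← div_eq_inv_mul, le_div_iff₀ (by positivity)]
  have h1 := (not_le.1 hc).le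
  rw [pow_add] at h1
  linarith

lemma norm_le_of_coord {η : E n} {R : ℝ} (hR : 0 ≤ R) (h : ∀ j, |η j| ≤ R) : ‖η‖ ≤ √(n * R ^ 2) := by
  rw [EuclideanSpace.norm_eq]
  refine Real.sqrt_le_sqrt ?_
  calc ∑ j, ‖η j‖ ^ 2 ≤ ∑ _j : Fin n, R ^ 2 := by
        refine Finset.sum_le_sum fun j _ => ?_
        rw [Real.norm_eq_abs]
        exact pow_le_pow_left₀ (abs_nonneg _) (h j) 2
    _ = n * R ^ 2 := by simp

lemma integrable_of_supp {f : E n → ℝ} (hc : Continuous f) {R : ℝ} (hR : 0 ≤ R)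
    (hs : ∀ η, f η ≠ 0 → ∀ j, |η j| ≤ R) : Integrable f := by
  refine hc.integrable_of_hasCompactSupport ?_
  refine HasCompactSupport.of_support_subset_isCompact (isCompact_closedBall (0 : E n) (√(n * R ^ 2))) ?_
  intro η hη
  rw [mem_closedBall_zero_iff]
  exact norm_le_of_coord hR (hs η hη)

lemma norm_prod_le {ι : Type*} [Fintype ι] [DecidableEq ι] (g : ι → ℂ) {M : ℝ} (hM : ∀ j, ‖g j‖ ≤ M)
    (i : ι) : ‖∏ j, g j‖ ≤ ‖g i‖ * M ^ (Fintype.card ι - 1) := by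
  have hM0 : 0 ≤ M := (norm_nonneg _).trans (hM i)
  rw [norm_prod, ← Finset.mul_prod_erase Finset.univ _ (Finset.mem_univ i)]
  refine mul_le_mul_of_nonneg_left ?_ (norm_nonneg _)
  calc ∏ j ∈ Finset.univ.erase i, ‖g j‖ ≤ ∏ _j ∈ Finset.univ.erase i, M :=
        Finset.prod_le_prod (fun j _ => norm_nonneg _) fun j _ => hM j
    _ = M ^ (Fintype.card ι - 1) := by
        rw [Finset.prod_const, Finset.card_erase_of_mem (Finset.mem_univ i), Finset.card_univ]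

end Vale.Agent.P076.H618
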