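import Vale.Agent.P076.H618.Time

/-!
# The chain of the heavier children
-/

open MeasureTheory Complex FourierTransform Filter Topology Set
open scoped ENNReal NNReal

namespace Vale.Agent.P076.H618

open Vale.Agent.P076 Vale.Agent.P076.H791 Vale.Agent.P076.R2.H45 Vale.Agent.P076.H263

variable {n : ℕ} {V : ℕ → E n → ℝ} {A₀ C₀ : ℝ} {s : E n → ℝ} {h : E n → ℂ} {A : Set (E n)} {r : ℕ}

/-- the masses of the tree -/
noncomputable def ms (A : Set (E n)) (s : E n → ℝ) (k l : ℕ) : ℝ := (volume (F A s k l)).toReal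

lemma F_split (A : Set (E n)) (s : E n → ℝ) (k l : ℕ) :
    F A s k l = F A s (k + 1) (2 * l) ∪ F A s (k + 1) (2 * l + 1) := by
  ext x
  simp only [F, cell, mem_inter_iff, mem_preimage, mem_singleton_iff, mem_union]
  have h := tc_half s k x
  constructor
  · rintro ⟨hx, h1⟩
    have : tc s (k + 1) x = 2 * l ∨ tc s (k + 1) x = 2 * l + 1 := by omega
    rcases this with h2 | h2
    · exact Or.inl ⟨hx, h2⟩
    · exact Or.inr ⟨hx, h2⟩
  · rintro (⟨hx, h1⟩ | ⟨hx, h1⟩)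
    · exact ⟨hx, by omega⟩
    · exact ⟨hx, by omega⟩

lemma F_disj (A : Set (E n)) (s : E n → ℝ) (k l : ℕ) :
    Disjoint (F A s (k + 1) (2 * l)) (F A s (k + 1) (2 * l + 1)) := by
  refine Set.disjoint_left.2 fun x hx hx' => ?_
  have h1 : tc s (k + 1) x = 2 * l := hx.2
  have h2 : tc s (k + 1) x = 2 * l + 1 := hx'.2
  omega

lemma Phi_split (a : Adm r A s h) (k l : ℕ) (η : E n) : Phi (F A s k l) s h η =
    Phi (F A s (k + 1) (2 * l)) s h η + Phi (F A s (k + 1) (2 * l + 1)) s h η := by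
  conv_lhs => rw [Phi, F_split]
  exact setIntegral_union (F_disj A s k l) (mF a _ _) (integrable_kern (aF a _ _) η)
    (integrable_kern (aF a _ _) η)

lemma ms_split (a : Adm r A s h) (k l : ℕ) :
    ms A s k l = ms A s (k + 1) (2 * l) + ms A s (k + 1) (2 * l + 1) := by
  unfold ms
  rw [← ENNReal.toReal_add (aF a _ _).vol.ne (aF a _ _).vol.ne,
    ← measure_union (F_disj A s k l) (mF a _ _), ← F_split]

lemma ms_nonneg (A : Set (E n)) (s : E n → ℝ) (k l : ℕ) : 0 ≤ ms A s k l := ENNReal.toReal_nonneg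

/-- the index of the lighter child -/
noncomputable def lg (m : ℕ → ℕ → ℝ) (j k l : ℕ) : ℕ :=
  if m (k + j + 1) (2 * hv m j k l + 1) ≤ m (k + j + 1) (2 * hv m j k l) then
    2 * hv m j k l + 1 else 2 * hv m j k l

lemma m_lg (m : ℕ → ℕ → ℝ) (j k l : ℕ) : m (k + j + 1) (lg m j k l) = H263.lt m (k + j) (hv m j k l) := by
  unfold lg H263.lt
  split_ifs with h1
  · rw [min_eq_right h1]
  · rw [min_eq_left (not_le.1 h1).le]

/-- the pieces of the chain: lighter children and, at the end, the heavy descendant -/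
noncomputable def pc (A : Set (E n)) (s : E n → ℝ) (k l J j : ℕ) : Set (E n) :=
  if j < J then F A s (k + j + 1) (lg (ms A s) j k l) else F A s (k + j) (hv (ms A s) j k l)

/-- their masses -/
noncomputable def mu (m : ℕ → ℕ → ℝ) (k l J j : ℕ) : ℝ :=
  if j < J then H263.lt m (k + j) (hv m j k l) else m (k + j) (hv m j k l)

lemma vol_pc (A : Set (E n)) (s : E n → ℝ) (k l J j : ℕ) :
    (volume (pc A s k l J j)).toReal = mu (ms A s) k l J j := by
  unfold pc mu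
  split_ifs with h1
  · rw [← m_lg]; rfl
  · rfl

lemma a_pc (a : Adm r A s h) (k l J j : ℕ) : Adm r (pc A s k l J j) s h := by
  unfold pc
  split_ifs
  · exact aF a _ _
  · exact aF a _ _

lemma split_lg {M : Type*} [AddCommMonoid M] (f : ℕ → ℕ → M)
    (hf : ∀ k l, f k l = f (k + 1) (2 * l) + f (k + 1) (2 * l + 1)) (m : ℕ → ℕ → ℝ) (j k l : ℕ) :
    f (k + j) (hv m j k l) = f (k + j + 1) (lg m j k l) + f (k + j + 1) (hv m (j + 1) k l) := by
  rw [hf, hv_succ]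
  unfold lg
  split_ifs
  · rw [add_comm]
  · rfl

lemma chain_add {M : Type*} [AddCommMonoid M] (f : ℕ → ℕ → M)
    (hf : ∀ k l, f k l = f (k + 1) (2 * l) + f (k + 1) (2 * l + 1)) (m : ℕ → ℕ → ℝ) (k l J : ℕ) :
    f k l = (∑ j ∈ Finset.range J, f (k + j + 1) (lg m j k l)) + f (k + J) (hv m J k l) := by
  induction J with
  | zero => simp
  | succ J ih =>
    rw [Finset.sum_range_succ, add_assoc, ← add_assoc k J 1, ← split_lg f hf m J k l]
    exact ih

lemma chain_Phi (a : Adm r A s h) (k l J : ℕ) (η : E n) :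
    Phi (F A s k l) s h η = ∑ j ∈ Finset.range (J + 1), Phi (pc A s k l J j) s h η := by
  have h1 := chain_add (fun k l => Phi (F A s k l) s h η) (fun k l => Phi_split a k l η) (ms A s) k l J
  rw [h1, Finset.sum_range_succ]
  congr 1
  · refine Finset.sum_congr rfl fun j hj => ?_
    rw [pc, if_pos (Finset.mem_range.1 hj)]
  · rw [pc, if_neg (lt_irrefl J)]

lemma chain_mass {m : ℕ → ℕ → ℝ} (hadd : ∀ k l, m k l = m (k + 1) (2 * l) + m (k + 1) (2 * l + 1))
    (k l J : ℕ) : m k l = ∑ j ∈ Finset.range (J + 1), mu m k l J j := by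
  have h1 := chain_add m hadd m k l J
  rw [h1, Finset.sum_range_succ]
  congr 1
  · refine Finset.sum_congr rfl fun j hj => ?_
    rw [mu, if_pos (Finset.mem_range.1 hj), m_lg m j k l]
  · rw [mu, if_neg (lt_irrefl J)]

/-- weighted Cauchy–Schwarz -/
lemma wcs (J : ℕ) (v : ℕ → ℂ) {b : ℝ} (hb : 0 < b) : ‖∑ j ∈ Finset.range J, v j‖ ^ 2 ≤
    (∑ j ∈ Finset.range J, (b⁻¹) ^ j) * ∑ j ∈ Finset.range J, b ^ j * ‖v j‖ ^ 2 := by
  have h1 : ‖∑ j ∈ Finset.range J, v j‖ ^ 2 ≤ (∑ j ∈ Finset.range J, ‖v j‖) ^ 2 :=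
    pow_le_pow_left₀ (norm_nonneg _) (norm_sum_le _ _) 2
  refine h1.trans (Finset.sum_sq_le_sum_mul_sum_of_sq_le_mul _ (fun j _ => by positivity)
    (fun j _ => by positivity) fun j _ => le_of_eq ?_)
  rw [inv_pow]
  field_simp

lemma geo_le {b : ℝ} (hb : 1 < b) (J : ℕ) : ∑ j ∈ Finset.range J, (b⁻¹) ^ j ≤ (1 - b⁻¹)⁻¹ := by
  have h0 : 0 ≤ b⁻¹ := by positivity
  have h1 : b⁻¹ < 1 := inv_lt_one_of_one_lt₀ hb
  rw [← tsum_geometric_of_lt_one h0 h1]
  exact (summable_geometric_of_lt_one h0 h1).sum_le_tsum _ fun j _ => by positivity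

lemma QE_cs {W : E n → ℝ} (hWm : Measurable W) {A' : Set (E n)} {J : ℕ} {G : ℕ → Set (E n)}
    (hPhi : ∀ η, Phi A' s h η = ∑ j ∈ Finset.range J, Phi (G j) s h η)
    (ha : ∀ j, Adm r (G j) s h) {b : ℝ} (hb : 1 < b) :
    QE W s h A' ≤ ENNReal.ofReal ((1 - b⁻¹)⁻¹) *
      ∑ j ∈ Finset.range J, ENNReal.ofReal (b ^ j) * QE W s h (G j) := by
  have hb0 : 0 < b := by linarith
  have h1 : b⁻¹ < 1 := inv_lt_one_of_one_lt₀ hb
  have h2 : 0 < 1 - b⁻¹ := by linarith
  have key : ∀ η, ENNReal.ofReal (W η) * ‖Phi A' s h η‖ₑ ^ 2 ≤ ENNReal.ofReal ((1 - b⁻¹)⁻¹) *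
      ∑ j ∈ Finset.range J, ENNReal.ofReal (b ^ j) * (ENNReal.ofReal (W η) * ‖Phi (G j) s h η‖ₑ ^ 2) := by
    intro η
    have e1 : ∀ z : ℂ, ‖z‖ₑ ^ 2 = ENNReal.ofReal (‖z‖ ^ 2) := fun z => by
      rw [ENNReal.ofReal_pow (norm_nonneg _), ofReal_norm]
    have e2 : ‖Phi A' s h η‖ₑ ^ 2 ≤ ENNReal.ofReal ((1 - b⁻¹)⁻¹) *
        ∑ j ∈ Finset.range J, ENNReal.ofReal (b ^ j) * ‖Phi (G j) s h η‖ₑ ^ 2 := by
      simp_rw [e1]
      have e3 : ∀ j ∈ Finset.range J, ENNReal.ofReal (b ^ j) * ENNReal.ofReal (‖Phi (G j) s h η‖ ^ 2) =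
          ENNReal.ofReal (b ^ j * ‖Phi (G j) s h η‖ ^ 2) := fun j _ =>
        (ENNReal.ofReal_mul (by positivity)).symm
      rw [Finset.sum_congr rfl e3, ← ENNReal.ofReal_sum_of_nonneg fun j _ => by positivity,
        ← ENNReal.ofReal_mul (by positivity)]
      refine ENNReal.ofReal_le_ofReal ?_
      rw [hPhi]
      refine (wcs J _ hb0).trans ?_
      refine mul_le_mul_of_nonneg_right (geo_le hb J) ?_
      exact Finset.sum_nonneg fun j _ => by positivity
    calc ENNReal.ofReal (W η) * ‖Phi A' s h η‖ₑ ^ 2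
        ≤ ENNReal.ofReal (W η) * (ENNReal.ofReal ((1 - b⁻¹)⁻¹) *
          ∑ j ∈ Finset.range J, ENNReal.ofReal (b ^ j) * ‖Phi (G j) s h η‖ₑ ^ 2) := by gcongr
      _ = _ := by
          rw [mul_left_comm, Finset.mul_sum]
          congr 1
          refine Finset.sum_congr rfl fun j _ => ?_
          ring
  unfold QE
  refine (lintegral_mono key).trans (le_of_eq ?_)
  rw [lintegral_const_mul' _ _ ENNReal.ofReal_ne_top, lintegral_finsetSum]
  · congr 1
    refine Finset.sum_congr rfl fun j _ => ?_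
    rw [lintegral_const_mul' _ _ ENNReal.ofReal_ne_top]
  · exact fun j _ => (measurable_QE hWm (ha j)).const_mul _

end Vale.Agent.P076.H618
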