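import Vale.Agent.P076.H618.Asm

/-!
# From the single-scale estimate to convergence for all of `H^σ`
-/

open MeasureTheory Complex FourierTransform Filter Topology Set
open scoped ENNReal NNReal

namespace Vale.Agent.P076.H618

open Vale.Agent.P076 Vale.Agent.P076.H791 Vale.Agent.P076.R2.H45

/-- the maximal principle gives convergence -/
theorem conv_of_MP {n : ℕ} {w : (Fin n → ℝ) → ℝ≥0∞} (hw : Measurable w) (hw1 : ∀ ξ, 1 ≤ w ξ)
    (h : MP (H791.wt w)) (f g : (Fin n → ℝ) → ℂ) (hfg : IsFourierPair f g)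
    (hE : ∫⁻ ξ, w ξ * ‖g ξ‖ₑ ^ 2 < ⊤) : ConvergesStrongly f g := by
  have hwt := measurable_wt hw
  have hwt1 : ∀ η, 1 ≤ H791.wt w η := fun η => hw1 _
  obtain ⟨F, hf, hg⟩ := exists_lp hfg
  have hE2 : En (H791.wt w) (fun η => (𝓕 F : Lp ℂ 2 (volume : Measure (E n))) η) < ⊤ := by
    have h1 : ∫⁻ ξ, w ξ * ‖g ξ‖ₑ ^ 2 = ∫⁻ ξ, w ξ * ‖freq F ξ‖ₑ ^ 2 := by
      refine lintegral_congr_ae ?_
      filter_upwards [hg] with ξ hξ
      rw [hξ]
    rw [h1, energy_freq] at hE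
    by_contra hcon
    rw [not_lt, top_le_iff] at hcon
    rw [hcon, ENNReal.mul_top ofReal_pos_scale] at hE
    exact lt_irrefl _ hE
  filter_upwards [ae_toE (pos_data hwt hwt1 h F hE2), hf] with x hx hfx
  obtain ⟨u, hu, hu0, hut⟩ := hx
  refine ⟨fun t => u (2 * Real.pi * t), hu.comp (continuous_const.mul continuous_id), ?_, fun t => ?_⟩
  · simp only [mul_zero]
    rw [hu0, hfx]
    rfl
  · have h2 : Tendsto (fun b : ℝ => 4 * Real.pi ^ 2 * b) (𝓝[>] 0) (𝓝[>] 0) := by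
      refine tendsto_nhdsWithin_iff.2 ⟨?_, ?_⟩
      · have : Tendsto (fun b : ℝ => 4 * Real.pi ^ 2 * b) (𝓝 0) (𝓝 (4 * Real.pi ^ 2 * 0)) :=
          (continuous_const.mul continuous_id).tendsto 0
        rw [mul_zero] at this
        exact this.mono_left nhdsWithin_le_nhds
      · filter_upwards [self_mem_nhdsWithin] with b hb
        have hb' : (0:ℝ) < b := hb
        exact Set.mem_Ioi.2 (by positivity)
    refine ((hut (2 * Real.pi * t)).comp h2).congr fun a => ?_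
    rw [evolve_congr hg, evolve_freq, schrReg_eq_evo]
    rfl

/-- **P0**: the single-scale estimate gives convergence in `H^σ` -/
theorem conv_of_SLat {n : ℕ} {σ : ℝ} (hσ : 0 < σ) (hS : SLat n σ) (f g : (Fin n → ℝ) → ℂ)
    (hfg : IsFourierPair f g) (hI : Integrable (fun ξ => (1 + nrm ξ ^ 2) ^ σ * ‖g ξ‖ ^ 2)) :
    ConvergesStrongly f g :=
  conv_of_MP (measurable_weight σ) (fun ξ => ENNReal.one_le_ofReal.2 (one_le_weight hσ.le ξ))
    (MP_of_SLat hσ hS) f g hfg ((integrable_weight_iff σ hfg.2.1).1 hI)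

end Vale.Agent.P076.H618
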