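import Vale.Agent.P076.H618.Small

/-!
# Localisation in space
-/

open MeasureTheory Complex FourierTransform Filter Topology Set
open scoped ENNReal NNReal

namespace Vale.Agent.P076.H618

open Vale.Agent.P076 Vale.Agent.P076.H791 Vale.Agent.P076.R2.H45

variable {n : ℕ}

/-- a family of shell bumps with kernel bounds -/
structure KB (V : ℕ → E n → ℝ) (A₀ C₀ : ℝ) : Prop where
  A1 : 1 ≤ A₀
  C1 : 1 ≤ C₀
  int : ∀ k, Integrable (V k)
  meas : ∀ k, Measurable (V k)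
  nn : ∀ k η, 0 ≤ V k η
  le1 : ∀ k η, V k η ≤ 1
  supp : ∀ k η, V k η ≠ 0 → ∀ i, |η i| ≤ 2 ^ (k + 2)
  ker1 : ∀ k z t, A₀ * ‖z‖ ≤ |t| * 2 ^ k → ‖Ker (V k) z t‖ * (4 ^ k * |t|) ^ (n + 1) ≤ C₀ * (2 ^ k) ^ n
  ker2 : ∀ k z t, A₀ * |t| * 2 ^ k ≤ ‖z‖ → ‖Ker (V k) z t‖ * (1 + 2 ^ k * ‖z‖) ^ (n + 1) ≤ C₀ * (2 ^ k) ^ n

/-- the integral of `(1+|z|)^{-(n+1)}` -/
noncomputable def Jn (n : ℕ) : ℝ≥0∞ := ∫⁻ z : E n, ENNReal.ofReal ((1 + ‖z‖) ^ (-((n : ℝ) + 1)))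

lemma Jn_lt_top : Jn n < ⊤ := by
  refine finite_integral_one_add_norm ?_
  rw [finrank_euclideanSpace, Fintype.card_fin]
  linarith

lemma scaled_integral (k : ℕ) :
    ∫⁻ z : E n, ENNReal.ofReal ((2 ^ k : ℝ) ^ n * ((1 + 2 ^ k * ‖z‖) ^ (n + 1))⁻¹) = Jn n := by
  set N : ℝ := 2 ^ k with hN
  have hN0 : 0 < N := by positivity
  have h1 : ∀ z : E n, ENNReal.ofReal (N ^ n * ((1 + N * ‖z‖) ^ (n + 1))⁻¹) =
      ENNReal.ofReal (N ^ n) * ENNReal.ofReal ((1 + ‖N • z‖) ^ (-((n : ℝ) + 1))) := by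
    intro z
    rw [← ENNReal.ofReal_mul (by positivity)]
    congr 2
    rw [norm_smul, Real.norm_eq_abs, abs_of_pos hN0, Real.rpow_neg (by positivity)]
    congr 1
    rw [← Real.rpow_natCast]
    push_cast
    rfl
  have hm : Measurable fun z : E n => ENNReal.ofReal ((1 + ‖z‖) ^ (-((n : ℝ) + 1))) := by fun_prop
  simp_rw [h1]
  rw [lintegral_const_mul' _ _ ENNReal.ofReal_ne_top]
  have h2 : ∫⁻ z : E n, ENNReal.ofReal ((1 + ‖N • z‖) ^ (-((n : ℝ) + 1))) =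
      ENNReal.ofReal ((N ^ n)⁻¹) * Jn n := by
    have h3 := lintegral_map (μ := (volume : Measure (E n))) hm (measurable_const_smul N)
    rw [Measure.map_addHaar_smul volume hN0.ne', finrank_euclideanSpace, Fintype.card_fin,
      lintegral_smul_measure, abs_of_pos (by positivity)] at h3
    exact h3.symm
  rw [h2, ← mul_assoc, ← ENNReal.ofReal_mul (by positivity), mul_inv_cancel₀ (by positivity),
    ENNReal.ofReal_one, one_mul]

lemma sum_rpow_le {ι : Type*} (T : Finset ι) (f : ι → ℝ≥0∞) {δ : ℝ} (hδ : 0 < δ) :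
    ∑ i ∈ T, f i ^ (1 + δ) ≤ (∑ i ∈ T, f i) ^ (1 + δ) := by
  have h1 : ∀ a : ℝ≥0∞, a ^ (1 + δ) = a * a ^ δ := fun a => by
    rw [ENNReal.rpow_add_of_nonneg _ _ zero_le_one hδ.le, ENNReal.rpow_one]
  simp_rw [h1]
  rw [Finset.sum_mul]
  refine Finset.sum_le_sum fun i hi => ?_
  gcongr
  exact Finset.single_le_sum (fun _ _ => zero_le) hi

variable {V : ℕ → E n → ℝ} {A₀ C₀ : ℝ} {s : E n → ℝ} {h : E n → ℂ} {A : Set (E n)} {r : ℕ}

lemma abs_le_norm (z : E n) (i : Fin n) : |z i| ≤ ‖z‖ := by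
  rw [← Real.norm_eq_abs]
  exact PiLp.norm_apply_le z i

/-- **localisation in space**: -/
theorem cube_step {σ δ C' : ℝ} (hδ0 : 0 < δ) (hC' : 0 < C')
    (hsm : ∀ (k j : ℕ), j ≤ k → ∀ V : E n → ℝ, Integrable V → Measurable V →
      (∀ η, 0 ≤ V η) → (∀ η, V η ≤ 1) → (∀ η, V η ≠ 0 → ∀ i, |η i| ≤ 2 ^ (k + 2)) →
      ∀ (r : ℕ) (A : Set (E n)) (s : E n → ℝ) (h : E n → ℂ), Adm r A s h → ∀ (z₀ : E n) (τ₀ : ℝ),
      (∀ x ∈ A, ∀ i, |x i - z₀ i| ≤ ((2 : ℝ) ^ j)⁻¹) →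
      (∀ x ∈ A, τ₀ ≤ s x ∧ s x ≤ τ₀ + ((2 : ℝ) ^ (k + j))⁻¹) →
      QE V s h A ≤ ENNReal.ofReal (C' * (2 ^ k : ℝ) ^ (2 * σ) * (2 ^ j : ℝ) ^ (-(2 * σ - n * δ))) *
        volume A ^ (1 + δ)) (hK : KB V A₀ C₀) :
    ∃ C : ℝ≥0, ∀ (k j : ℕ), j ≤ k → ∀ (r : ℕ) (A : Set (E n)) (s : E n → ℝ) (h : E n → ℂ),
      Adm r A s h → ∀ τ₀ : ℝ, (∀ x ∈ A, τ₀ ≤ s x ∧ s x ≤ τ₀ + ((2 : ℝ) ^ (k + j))⁻¹) →
      QE (V k) s h A ≤ C * (ENNReal.ofReal ((2 ^ k : ℝ) ^ (2 * σ) * (2 ^ j : ℝ) ^ (-(2 * σ - n * δ))) *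
        volume A ^ (1 + δ)) + C * volume A := by
  classical
  set M : ℕ := ⌈A₀⌉₊ with hM
  have hMA : A₀ ≤ M := Nat.le_ceil _
  set D1 : ℝ≥0 := 2 * ((2 * M + 1) ^ n : ℕ) * C'.toNNReal with hD1
  set D2 : ℝ≥0 := C₀.toNNReal * (Jn n).toNNReal with hD2
  refine ⟨D1 + D2, ?_⟩
  intro k j hjk r A s h a τ₀ hτ
  have h2j : (0 : ℝ) < 2 ^ j := by positivity
  set c : E n → (Fin n → ℤ) := fun x => fl ((2 ^ j : ℝ) • x) with hc
  have hcm : Measurable c := measurable_fl.comp (measurable_const_smul _)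
  set T : Finset (Fin n → ℤ) := Fintype.piFinset fun _ => Finset.Icc (-(2 ^ j * r : ℤ)) (2 ^ j * r) with hT
  have hcT : ∀ x ∈ A, c x ∈ T := by
    intro x hx
    rw [hT, Fintype.mem_piFinset]
    intro i
    have h1 : |x i| < r := by
      have h2 := a.sub hx
      rw [mem_ball_zero_iff] at h2
      exact (abs_le_norm x i).trans_lt h2
    have h2 := abs_lt.1 h1
    rw [Finset.mem_Icc]
    have h3 : c x i = ⌊(2 ^ j : ℝ) * x i⌋ := rfl
    rw [h3]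
    constructor
    · rw [Int.le_floor]
      push_cast
      nlinarith
    · have h4 : (2 ^ j : ℝ) * x i ≤ ((2 ^ j * r : ℤ) : ℝ) := by
        push_cast
        nlinarith
      exact_mod_cast (Int.floor_le _).trans h4
  set near : (Fin n → ℤ) → (Fin n → ℤ) → Prop := fun κ κ' => ∀ i, |κ i - κ' i| ≤ M with hnear
  have hsym : ∀ κ κ', near κ κ' → near κ' κ := fun κ κ' hκ i => by
    rw [abs_sub_comm]; exact hκ i
  have hcard : ∀ κ ∈ T, (T.filter (near κ)).card ≤ (2 * M + 1) ^ n := by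
    intro κ _
    have h1 : T.filter (near κ) ⊆ Fintype.piFinset fun i => Finset.Icc (κ i - M) (κ i + M) := by
      intro κ' hκ'
      rw [Finset.mem_filter] at hκ'
      rw [Fintype.mem_piFinset]
      intro i
      have h2 := abs_le.1 (hκ'.2 i)
      rw [Finset.mem_Icc]
      constructor <;> linarith [h2.1, h2.2]
    refine (Finset.card_le_card h1).trans ?_
    rw [Fintype.card_piFinset]
    simp only [Int.card_Icc]
    have h2 : ∀ i, (κ i + M + 1 - (κ i - M)).toNat = 2 * M + 1 := fun i => by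
      have : κ i + M + 1 - (κ i - M) = ((2 * M + 1 : ℕ) : ℤ) := by push_cast; ring
      rw [this, Int.toNat_natCast]
    simp only [h2, Finset.prod_const, Finset.card_univ, Fintype.card_fin, le_refl]
  set B : E n → ℝ≥0∞ := fun z => ENNReal.ofReal C₀ *
    ENNReal.ofReal ((2 ^ k : ℝ) ^ n * ((1 + 2 ^ k * ‖z‖) ^ (n + 1))⁻¹) with hB
  have hBm : Measurable B := by
    refine Measurable.const_mul (Measurable.ennreal_ofReal ?_) _
    fun_prop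
  have hC0 : 0 < C₀ := lt_of_lt_of_le one_pos hK.C1
  have hfar : ∀ x ∈ A, ∀ y ∈ A, ¬ near (c x) (c y) → ‖Ker (V k) (x - y) (s x - s y)‖ₑ ≤ B (x - y) := by
    intro x hx y hy hn
    simp only [hnear, not_forall, not_le] at hn
    obtain ⟨i, hi⟩ := hn
    have h1 : (M : ℝ) < |(2 ^ j : ℝ) * x i - 2 ^ j * y i| := by
      have e1 : c x i = ⌊(2 ^ j : ℝ) * x i⌋ := rfl
      have e2 : c y i = ⌊(2 ^ j : ℝ) * y i⌋ := rfl
      rw [e1, e2] at hi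
      have f1 := Int.floor_le ((2 ^ j : ℝ) * x i)
      have f2 := Int.lt_floor_add_one ((2 ^ j : ℝ) * x i)
      have f3 := Int.floor_le ((2 ^ j : ℝ) * y i)
      have f4 := Int.lt_floor_add_one ((2 ^ j : ℝ) * y i)
      rcases lt_abs.1 hi with g | g
      · have g' : (M : ℤ) + 1 ≤ ⌊(2 ^ j : ℝ) * x i⌋ - ⌊(2 ^ j : ℝ) * y i⌋ := g
        have g2 : (M : ℝ) + 1 ≤ (⌊(2 ^ j : ℝ) * x i⌋ : ℝ) - ⌊(2 ^ j : ℝ) * y i⌋ := by exact_mod_cast g'
        refine lt_of_lt_of_le ?_ (le_abs_self _)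
        linarith
      · have g' : (M : ℤ) + 1 ≤ -(⌊(2 ^ j : ℝ) * x i⌋ - ⌊(2 ^ j : ℝ) * y i⌋) := g
        have g2 : (M : ℝ) + 1 ≤ -((⌊(2 ^ j : ℝ) * x i⌋ : ℝ) - ⌊(2 ^ j : ℝ) * y i⌋) := by exact_mod_cast g'
        refine lt_of_lt_of_le ?_ (neg_le_abs _)
        linarith
    have h2 : |(2 ^ j : ℝ) * x i - 2 ^ j * y i| ≤ 2 ^ j * ‖x - y‖ := by
      rw [← mul_sub, abs_mul, abs_of_pos h2j]
      exact mul_le_mul_of_nonneg_left (abs_le_norm (x - y) i) h2j.le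
    have h3 : |s x - s y| * 2 ^ k * 2 ^ j ≤ 1 := by
      have g1 := hτ x hx
      have g2 := hτ y hy
      have g3 : |s x - s y| ≤ ((2 : ℝ) ^ (k + j))⁻¹ := by
        rw [abs_le]; constructor <;> linarith [g1.1, g1.2, g2.1, g2.2]
      calc |s x - s y| * 2 ^ k * 2 ^ j = |s x - s y| * 2 ^ (k + j) := by rw [pow_add]; ring
        _ ≤ ((2 : ℝ) ^ (k + j))⁻¹ * 2 ^ (k + j) := by gcongr
        _ = 1 := inv_mul_cancel₀ (by positivity)
    have h4 : A₀ * |s x - s y| * 2 ^ k ≤ ‖x - y‖ := by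
      have g1 : A₀ * |s x - s y| * 2 ^ k * 2 ^ j ≤ ‖x - y‖ * 2 ^ j := by
        have g2 : (M : ℝ) ≤ ‖x - y‖ * 2 ^ j := by linarith
        have hA : 0 ≤ A₀ := by linarith [hK.A1]
        nlinarith
      exact le_of_mul_le_mul_right g1 h2j
    have h5 := hK.ker2 k _ _ h4
    have h6 : ‖Ker (V k) (x - y) (s x - s y)‖ ≤ C₀ * ((2 ^ k : ℝ) ^ n * ((1 + 2 ^ k * ‖x - y‖) ^ (n + 1))⁻¹) := by
      rw [← mul_assoc, ← div_eq_mul_inv, le_div_iff₀ (by positivity)]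
      exact h5
    rw [← ofReal_norm]
    simp only [hB]
    rw [← ENNReal.ofReal_mul hC0.le]
    exact ENNReal.ofReal_le_ofReal h6
  have hcell : ∀ κ ∈ T, MeasurableSet (cell A c κ) := fun κ _ => a.mA.inter (hcm (measurableSet_singleton κ))
  have key := ao (hK.int k) (hK.meas k) (hK.nn k) a hcell hcT near hsym _ hcard hBm hfar
  -- the error
  have herr : ∫⁻ z in Metric.ball 0 (2 * r), B z ≤ (D2 : ℝ≥0∞) := by
    refine (setLIntegral_le_lintegral _ _).trans ?_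
    simp only [hB]
    rw [lintegral_const_mul _ (by fun_prop), scaled_integral, hD2, ENNReal.coe_mul,
      ENNReal.coe_toNNReal Jn_lt_top.ne]
    rfl
  -- the cells
  have hsum : ∑ κ ∈ T, QE (V k) s h (cell A c κ) ≤
      ENNReal.ofReal (C' * (2 ^ k : ℝ) ^ (2 * σ) * (2 ^ j : ℝ) ^ (-(2 * σ - n * δ))) * volume A ^ (1 + δ) := by
    calc ∑ κ ∈ T, QE (V k) s h (cell A c κ)
        ≤ ∑ κ ∈ T, ENNReal.ofReal (C' * (2 ^ k : ℝ) ^ (2 * σ) * (2 ^ j : ℝ) ^ (-(2 * σ - n * δ))) *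
            volume (cell A c κ) ^ (1 + δ) := by
          refine Finset.sum_le_sum fun κ hκ => ?_
          refine hsm k j hjk (V k) (hK.int k) (hK.meas k) (hK.nn k) (hK.le1 k) (hK.supp k) r _ s h
            (Adm.mono a (hcell κ hκ) inter_subset_left) (((2 : ℝ) ^ j)⁻¹ • lp κ) τ₀ ?_
            fun x hx => hτ x hx.1
          intro x hx i
          have e1 : ⌊(2 ^ j : ℝ) * x i⌋ = κ i := by
            have : c x = κ := hx.2
            rw [← this]; rfl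
          have f1 := Int.floor_le ((2 ^ j : ℝ) * x i)
          have f2 := Int.lt_floor_add_one ((2 ^ j : ℝ) * x i)
          rw [e1] at f1 f2
          rw [PiLp.smul_apply, smul_eq_mul, lp_apply]
          have e2 : x i - ((2 : ℝ) ^ j)⁻¹ * κ i = ((2 : ℝ) ^ j)⁻¹ * (2 ^ j * x i - κ i) := by
            field_simp
          rw [e2, abs_mul, abs_of_pos (inv_pos.2 h2j)]
          have : |2 ^ j * x i - κ i| ≤ 1 := by
            rw [abs_le]; constructor <;> linarith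
          calc ((2 : ℝ) ^ j)⁻¹ * |2 ^ j * x i - κ i| ≤ ((2 : ℝ) ^ j)⁻¹ * 1 := by gcongr
            _ = ((2 : ℝ) ^ j)⁻¹ := mul_one _
      _ = ENNReal.ofReal (C' * (2 ^ k : ℝ) ^ (2 * σ) * (2 ^ j : ℝ) ^ (-(2 * σ - n * δ))) *
            ∑ κ ∈ T, volume (cell A c κ) ^ (1 + δ) := by rw [Finset.mul_sum]
      _ ≤ _ := by
          gcongr
          refine (sum_rpow_le T _ hδ0).trans ?_
          rw [← vol_cells hcell hcT]
  have e1 : ENNReal.ofReal (C' * (2 ^ k : ℝ) ^ (2 * σ) * (2 ^ j : ℝ) ^ (-(2 * σ - n * δ))) =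
      (C'.toNNReal : ℝ≥0∞) * ENNReal.ofReal ((2 ^ k : ℝ) ^ (2 * σ) * (2 ^ j : ℝ) ^ (-(2 * σ - n * δ))) := by
    rw [mul_assoc, ENNReal.ofReal_mul hC'.le]
    rfl
  calc QE (V k) s h A ≤ _ := key
    _ ≤ 2 * ((2 * M + 1) ^ n : ℕ) * (ENNReal.ofReal (C' * (2 ^ k : ℝ) ^ (2 * σ) *
          (2 ^ j : ℝ) ^ (-(2 * σ - n * δ))) * volume A ^ (1 + δ)) + D2 * volume A := by
        gcongr
    _ = (D1 : ℝ≥0∞) * (ENNReal.ofReal ((2 ^ k : ℝ) ^ (2 * σ) * (2 ^ j : ℝ) ^ (-(2 * σ - n * δ))) *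
          volume A ^ (1 + δ)) + D2 * volume A := by
        rw [e1, hD1]
        push_cast
        ring
    _ ≤ _ := by
        rw [ENNReal.coe_add]
        gcongr
        · exact le_self_add
        · exact le_add_self

end Vale.Agent.P076.H618
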