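import Vale.Agent.P076.R2.H45.Kern

/-!
# P076 / P0 : interface (helper618)

`SLat n s` : the lossless single-scale maximal estimate, at lattice points, with a gain for small sets.
Target of the block P0: `SLat n s → MP (weight of H^s)`, hence convergence for all of `H^s`
(for `n = 2`, `s = 1/3`: the endpoint).
-/

open MeasureTheory Complex FourierTransform Filter Topology Set
open scoped ENNReal NNReal

namespace Vale.Agent.P076.H618

open Vale.Agent.P076 Vale.Agent.P076.H791 Vale.Agent.P076.R2.H45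

variable {n : ℕ}

/-- the lattice point `k` -/
noncomputable def lp (k : Fin n → ℤ) : E n := toE fun i => (k i : ℝ)

/-- profiles: measurable, bounded, supported in the cube `|η_i| ≤ 1/8` -/
structure Prof (G : E n → ℂ) : Prop where
  meas : Measurable G
  bdd : ∃ b : ℝ, ∀ η, ‖G η‖ ≤ b
  supp : ∀ η, G η ≠ 0 → ∀ i, |η i| ≤ 1 / 8

/-- one time `t x ∈ [0, R]` for each lattice point `x ∈ X`, `|x_i| ≤ R`, and `|u(x, t x)| ≥ α` -/
structure Pt (R : ℝ) (G : E n → ℂ) (X : Finset (Fin n → ℤ)) (t : (Fin n → ℤ) → ℝ) (α : ℝ) : Prop where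
  pos : ∀ x ∈ X, ∀ i, |(x i : ℝ)| ≤ R
  t0 : ∀ x ∈ X, 0 ≤ t x
  tR : ∀ x ∈ X, t x ≤ R
  big : ∀ x ∈ X, α ≤ ‖evo G (lp x) (t x) 0‖

/-- the lossless single-scale estimate (at lattice points), with a gain for small sets -/
def SLat (n : ℕ) (s : ℝ) : Prop := ∃ C δ : ℝ, 0 < δ ∧
  ∀ (m : ℕ) (G : E n → ℂ) (X : Finset (Fin n → ℤ)) (t : (Fin n → ℤ) → ℝ) (α : ℝ),
    0 ≤ α → Prof G → Pt (2 ^ m) G X t α →
      α ^ 2 * X.card ≤ C * (2 ^ m : ℝ) ^ (2 * s) * ((X.card : ℝ) / (2 ^ m) ^ n) ^ δ * ∫ η, ‖G η‖ ^ 2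

/-- the weight of `H^s` on the side of `evo` -/
noncomputable def wH (n : ℕ) (s : ℝ) : E n → ℝ≥0∞ :=
  H791.wt (n := n) fun ξ => ENNReal.ofReal ((1 + nrm ξ ^ 2) ^ s)

/-- **target of the block P0** -/
def StP0 (n : ℕ) (s : ℝ) : Prop := 0 < s → SLat n s → MP (wH n s)

end Vale.Agent.P076.H618
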