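import Vale.Agent.P076.H618.Kern

/-!
# From weak type to the energy bound
-/

open MeasureTheory Complex FourierTransform Filter Topology Set
open scoped ENNReal NNReal

namespace Vale.Agent.P076.H618

open Vale.Agent.P076 Vale.Agent.P076.H791 Vale.Agent.P076.R2.H45

variable {n : ℕ} {V : E n → ℝ} {s : E n → ℝ} {h : E n → ℂ} {A A' : Set (E n)} {r : ℕ}

/-- layer cake -/
lemma layer {X : Type*} [MeasurableSpace X] {μ : Measure X} {f : X → ℝ} (hf : Measurable f)
    (hf0 : ∀ x, 0 ≤ f x) {q : ℝ} (hq : 1 < q) {m B : ℝ} (hm : 0 < m) (hB : 0 < B)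
    (hμ : μ univ ≤ ENNReal.ofReal m)
    (hw : ∀ t : ℝ, 0 < t → μ {x | t < f x} ≤ ENNReal.ofReal ((B / t) ^ q)) :
    ∫⁻ x, ENNReal.ofReal (f x) ∂μ ≤ ENNReal.ofReal (q / (q - 1) * B * m ^ (1 - 1 / q)) := by
  have hq0 : 0 < q := by linarith
  have hq1 : 0 < q - 1 := by linarith
  rw [lintegral_eq_lintegral_meas_lt μ (Eventually.of_forall hf0) hf.aemeasurable]
  set a : ℝ := B * m ^ (-(1 / q)) with ha
  have ha0 : 0 < a := by positivity
  have hsplit : Ioi (0 : ℝ) = Ioc 0 a ∪ Ioi a := (Ioc_union_Ioi_eq_Ioi ha0.le).symm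
  rw [hsplit]
  refine (lintegral_union_le _ _ _).trans ?_
  have h1 : ∫⁻ t in Ioc 0 a, μ {x | t < f x} ≤ ENNReal.ofReal (m * a) := by
    calc ∫⁻ t in Ioc 0 a, μ {x | t < f x} ≤ ∫⁻ t in Ioc 0 a, ENNReal.ofReal m :=
          lintegral_mono fun t => (measure_mono (subset_univ _)).trans hμ
      _ = ENNReal.ofReal (m * a) := by
          rw [setLIntegral_const, Real.volume_Ioc, sub_zero, ← ENNReal.ofReal_mul hm.le]
  have h2 : ∫⁻ t in Ioi a, μ {x | t < f x} ≤ ENNReal.ofReal (B ^ q * (a ^ (1 - q) / (q - 1))) := by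
    have e1 : ∫⁻ t in Ioi a, μ {x | t < f x} ≤ ∫⁻ t in Ioi a, ENNReal.ofReal (B ^ q * t ^ (-q)) := by
      refine setLIntegral_mono' measurableSet_Ioi fun t ht => ?_
      have ht0 : 0 < t := ha0.trans ht
      refine (hw t ht0).trans (le_of_eq ?_)
      rw [Real.div_rpow hB.le ht0.le, Real.rpow_neg ht0.le]
      rfl
    refine e1.trans (le_of_eq ?_)
    have e2 : IntegrableOn (fun t : ℝ => B ^ q * t ^ (-q)) (Ioi a) :=
      (integrableOn_Ioi_rpow_of_lt (by linarith) ha0).const_mul _
    rw [← ofReal_integral_eq_lintegral_ofReal e2, integral_const_mul,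
      integral_Ioi_rpow_of_lt (by linarith) ha0]
    · congr 2
      have e3 : -q + 1 = 1 - q := by ring
      rw [e3]
      have e4 : (1 - q) ≠ 0 := by linarith
      have e5 : q - 1 ≠ 0 := by linarith
      have e6 : 1 - q = -(q - 1) := by ring
      rw [e6, neg_div_neg_eq]
    · refine (ae_restrict_iff' measurableSet_Ioi).2 (Eventually.of_forall fun t ht => ?_)
      have ht0 : 0 < t := ha0.trans ht
      simp only [Pi.zero_apply]
      positivity
  refine (add_le_add h1 h2).trans ?_
  rw [← ENNReal.ofReal_add (by positivity) (by positivity)]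
  refine ENNReal.ofReal_le_ofReal (le_of_eq ?_)
  have e1 : m * a = B * m ^ (1 - 1 / q) := by
    rw [ha, show (1 - 1 / q) = 1 + (-(1 / q)) by ring, Real.rpow_add hm, Real.rpow_one]
    ring
  have e2 : B ^ q * a ^ (1 - q) = B * m ^ (1 - 1 / q) := by
    rw [ha, Real.mul_rpow hB.le (by positivity), ← Real.rpow_mul hm.le, ← mul_assoc,
      ← Real.rpow_add hB]
    have e3 : q + (1 - q) = 1 := by ring
    have e4 : -(1 / q) * (1 - q) = 1 - 1 / q := by field_simp; ring
    rw [e3, e4, Real.rpow_one]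
  rw [e1, ← mul_div_assoc, e2]
  have : q - 1 ≠ 0 := hq1.ne'
  field_simp
  ring

/-- the extremal profile -/
noncomputable def dG (V : E n → ℝ) (A : Set (E n)) (s : E n → ℝ) (h : E n → ℂ) (η : E n) : ℂ :=
  (V η : ℂ) * starRingEnd ℂ (Phi A s h η)

lemma measurable_dG (hVm : Measurable V) (a : Adm r A s h) : Measurable (dG V A s h) := by
  have h1 := Measurable.comp Complex.continuous_conj.measurable (measurable_Phi (A := A) a.ms a.mh)
  exact (Complex.measurable_ofReal.comp hVm).mul h1

lemma norm_dG_le (hV0 : ∀ η, 0 ≤ V η) (a : Adm r A s h) (η : E n) :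
    ‖dG V A s h η‖ ≤ V η * (volume A).toReal := by
  rw [dG, norm_mul, RCLike.norm_conj, Complex.norm_real, Real.norm_eq_abs, abs_of_nonneg (hV0 η)]
  exact mul_le_mul_of_nonneg_left (norm_Phi_le a η) (hV0 η)

lemma integrable_dG (hV : Integrable V) (hVm : Measurable V) (hV0 : ∀ η, 0 ≤ V η)
    (a : Adm r A s h) : Integrable (dG V A s h) := by
  refine Integrable.mono' (hV.mul_const (volume A).toReal) (measurable_dG hVm a).aestronglyMeasurable
    (Eventually.of_forall fun η => norm_dG_le hV0 a η)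

lemma cr_dG (hV : Integrable V) (hVm : Measurable V) (hV0 : ∀ η, 0 ≤ V η) (a : Adm r A s h) :
    cr V s h A A = ∫ x in A, h x * evo (dG V A s h) x (s x) 0 := by
  have hfin : IsFiniteMeasure ((volume : Measure (E n)).restrict A) :=
    ⟨by rw [Measure.restrict_apply_univ]; exact a.vol⟩
  have hGi := integrable_dG hV hVm hV0 a
  have hGm := measurable_dG hVm a
  have h1 : ∀ x, h x * evo (dG V A s h) x (s x) 0 = ∫ η, h x * ph x (s x) 0 η * dG V A s h η := by
    intro x
    rw [evo_eq, ← integral_const_mul]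
    refine integral_congr_ae (Eventually.of_forall fun η => ?_)
    simp only
    ring
  simp_rw [h1]
  rw [integral_integral_swap]
  · refine integral_congr_ae (Eventually.of_forall fun η => ?_)
    simp only
    rw [integral_mul_const, dG]
    change (V η : ℂ) * (Phi A s h η * starRingEnd ℂ (Phi A s h η)) =
      Phi A s h η * ((V η : ℂ) * starRingEnd ℂ (Phi A s h η))
    ring
  · have h3 : Integrable (fun p : E n × E n => ‖dG V A s h p.2‖)
        (((volume : Measure (E n)).restrict A).prod volume) := by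
      have := (integrable_const (1 : ℝ) (μ := (volume : Measure (E n)).restrict A)).mul_prod hGi.norm
      simpa using this
    refine Integrable.mono' h3 ?_ (Eventually.of_forall fun p => ?_)
    · exact ((measurable_kern a.ms a.mh).mul (hGm.comp measurable_snd)).aestronglyMeasurable
    · simp only [Function.uncurry]
      rw [norm_mul]
      exact mul_le_of_le_one_left (norm_nonneg _) (norm_kern_le a.bh _ _)

/-- **duality**: weak type bound gives the energy bound -/
theorem dual {q : ℝ} (hq : 1 < q) (hV : Integrable V) (hVm : Measurable V) (hV0 : ∀ η, 0 ≤ V η)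
    (hV1 : ∀ η, V η ≤ 1) (a : Adm r A s h) {b : ℝ} (hb : 0 < b)
    (hw : ∀ G : E n → ℂ, Measurable G → (∃ c, ∀ η, ‖G η‖ ≤ c) → (∀ η, G η ≠ 0 → V η ≠ 0) →
      0 < ∫ η, ‖G η‖ ^ 2 → ∀ t : ℝ, 0 < t → volume {x | x ∈ A ∧ t < ‖evo G x (s x) 0‖} ≤
        ENNReal.ofReal ((b * √(∫ η, ‖G η‖ ^ 2) / t) ^ q)) :
    QE V s h A ≤ ENNReal.ofReal ((q / (q - 1) * b) ^ 2) * volume A ^ (2 - 2 / q) := by
  have hq0 : 0 < q := by linarith
  have hq1 : 0 < q - 1 := by linarith
  have hfin : IsFiniteMeasure ((volume : Measure (E n)).restrict A) :=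
    ⟨by rw [Measure.restrict_apply_univ]; exact a.vol⟩
  have hGi := integrable_dG hV hVm hV0 a
  have hGm := measurable_dG hVm a
  set m : ℝ := (volume A).toReal with hm
  have hmA : volume A = ENNReal.ofReal m := (ENNReal.ofReal_toReal a.vol.ne).symm
  have hm0 : 0 ≤ m := ENNReal.toReal_nonneg
  have hGb : ∀ η, ‖dG V A s h η‖ ≤ m := fun η => (norm_dG_le hV0 a η).trans (by
    have := hV1 η
    nlinarith)
  -- the energy as a real number
  have hI : Integrable fun η => V η * ‖Phi A s h η‖ ^ 2 := by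
    have h2 := (integrable_cr hV a a).re
    refine h2.congr (Eventually.of_forall fun η => ?_)
    simp only
    rw [Complex.mul_conj, Complex.normSq_eq_norm_sq]
    rw [← Complex.ofReal_mul]
    simp only [RCLike.re_to_complex, Complex.ofReal_re]
  set Q : ℝ := ∫ η, V η * ‖Phi A s h η‖ ^ 2 with hQ
  have hQ0 : 0 ≤ Q := integral_nonneg fun η => mul_nonneg (hV0 η) (by positivity)
  have hQE : QE V s h A = ENNReal.ofReal Q := by
    rw [hQ, ofReal_integral_eq_lintegral_ofReal hI
      (Eventually.of_forall fun η => mul_nonneg (hV0 η) (by positivity)), QE]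
    refine lintegral_congr fun η => ?_
    rw [ENNReal.ofReal_mul (hV0 η), ENNReal.ofReal_pow (norm_nonneg _), ofReal_norm]
  have hpt : ∀ η, ‖dG V A s h η‖ ^ 2 ≤ V η * ‖Phi A s h η‖ ^ 2 := by
    intro η
    rw [dG, norm_mul, RCLike.norm_conj, Complex.norm_real, Real.norm_eq_abs, abs_of_nonneg (hV0 η),
      mul_pow]
    have h1 := hV0 η
    have h2 := hV1 η
    have h3 : V η ^ 2 ≤ V η := by nlinarith
    exact mul_le_mul_of_nonneg_right h3 (by positivity)
  have hG2 : ∫ η, ‖dG V A s h η‖ ^ 2 ≤ Q :=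
    integral_mono_of_nonneg (Eventually.of_forall fun η => by positivity) hI
      (Eventually.of_forall hpt)
  have hG0 : 0 ≤ ∫ η, ‖dG V A s h η‖ ^ 2 := integral_nonneg fun η => by positivity
  have hQle : QE V s h A ≤ ∫⁻ x in A, ENNReal.ofReal ‖evo (dG V A s h) x (s x) 0‖ := by
    rw [QE_eq hV hV0 a, cr_dG hV hVm hV0 a]
    refine (enorm_integral_le_lintegral_enorm _).trans (lintegral_mono fun x => ?_)
    rw [enorm_mul, ofReal_norm]
    have h1 : ‖h x‖ₑ ≤ 1 := by
      rw [← ofReal_norm, ← ENNReal.ofReal_one]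
      exact ENNReal.ofReal_le_ofReal (a.bh _)
    exact mul_le_of_le_one_left' h1
  rcases hm0.eq_or_lt with hm00 | hm00
  · have hA0 : volume A = 0 := by rw [hmA, ← hm00, ENNReal.ofReal_zero]
    have : QE V s h A ≤ 0 := by
      refine hQle.trans (le_of_eq ?_)
      rw [Measure.restrict_eq_zero.2 hA0, lintegral_zero_measure]
    exact this.trans zero_le
  rcases hG0.eq_or_lt with hG00 | hG00
  · -- the extremal profile vanishes
    have h1 : (fun η => ‖dG V A s h η‖ ^ 2) =ᵐ[volume] 0 := by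
      have h2 : Integrable fun η => ‖dG V A s h η‖ ^ 2 := by
        refine Integrable.mono' hI (hGm.norm.pow_const 2).aestronglyMeasurable
          (Eventually.of_forall fun η => ?_)
        rw [Real.norm_eq_abs, abs_of_nonneg (by positivity)]
        exact hpt η
      exact (integral_eq_zero_iff_of_nonneg (fun η => by positivity) h2).1 hG00.symm
    have h3 : ∀ x t, evo (dG V A s h) x t 0 = 0 := by
      intro x t
      rw [evo_eq]
      refine integral_eq_zero_of_ae (h1.mono fun η hη => ?_)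
      have h4 : ‖dG V A s h η‖ ^ 2 = 0 := hη
      have h5 : dG V A s h η = 0 := by simpa using h4
      simp [h5]
    have : QE V s h A ≤ 0 := by
      refine hQle.trans (le_of_eq ?_)
      simp [h3]
    exact this.trans zero_le
  · set N : ℝ := √(∫ η, ‖dG V A s h η‖ ^ 2) with hN
    have hN0 : 0 < N := Real.sqrt_pos.2 hG00
    have hNQ : N ≤ √Q := Real.sqrt_le_sqrt hG2
    have hzm : Measurable fun x => ‖evo (dG V A s h) x (s x) 0‖ := (measurable_evo_time hGi a.ms).norm
    have h1 := layer (μ := (volume : Measure (E n)).restrict A) hzm (fun x => norm_nonneg _) hq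
      (m := m) (B := b * N) hm00 (by positivity) (by rw [Measure.restrict_apply_univ, hmA])
      (fun t ht => by
        have h2 := hw (dG V A s h) hGm ⟨m, hGb⟩ (fun η hη hV' => hη (by simp [dG, hV'])) hG00 t ht
        rw [Measure.restrict_apply (measurableSet_lt measurable_const hzm)]
        refine le_trans (measure_mono ?_) h2
        exact fun x hx => ⟨hx.2, hx.1⟩)
    have h2 : Q ≤ q / (q - 1) * (b * N) * m ^ (1 - 1 / q) := by
      have h3 := hQle.trans h1
      rw [hQE] at h3
      exact (ENNReal.ofReal_le_ofReal_iff (by positivity)).1 h3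
    have hQ1 : √Q * √Q = Q := Real.mul_self_sqrt hQ0
    have hQ2 : 0 < √Q := lt_of_lt_of_le hN0 hNQ
    have h3 : √Q ≤ q / (q - 1) * b * m ^ (1 - 1 / q) := by
      have h4 : q / (q - 1) * (b * N) * m ^ (1 - 1 / q) ≤
          q / (q - 1) * (b * √Q) * m ^ (1 - 1 / q) := by gcongr
      have h5 : √Q * √Q ≤ (q / (q - 1) * b * m ^ (1 - 1 / q)) * √Q := by
        rw [hQ1]
        calc Q ≤ _ := h2
          _ ≤ _ := h4
          _ = _ := by ring
      exact le_of_mul_le_mul_right h5 hQ2
    rw [hQE, hmA, ENNReal.ofReal_rpow_of_pos hm00, ← ENNReal.ofReal_mul (by positivity)]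
    refine ENNReal.ofReal_le_ofReal ?_
    calc Q = √Q * √Q := hQ1.symm
      _ ≤ (q / (q - 1) * b * m ^ (1 - 1 / q)) * (q / (q - 1) * b * m ^ (1 - 1 / q)) := by gcongr
      _ = (q / (q - 1) * b) ^ 2 * (m ^ (1 - 1 / q) * m ^ (1 - 1 / q)) := by ring
      _ = (q / (q - 1) * b) ^ 2 * m ^ (2 - 2 / q) := by
        rw [← Real.rpow_add hm00]
        congr 2
        ring

end Vale.Agent.P076.H618
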