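import Vale.Agent.P076.H618.Conv
import Vale.Agent.P076.ASM.Defs

/-!
# From the single-scale estimate `StS` to convergence for all of `H^{1/3}(ℝ²)`
-/

open MeasureTheory Complex FourierTransform Filter Topology Set
open scoped ENNReal NNReal

namespace Vale.Agent.P076.H618

open Vale.Agent.P076 Vale.Agent.P076.H791 Vale.Agent.P076.R2.H45

lemma norm_le_two_mul {z : E 2} {R : ℝ} (hR : 0 ≤ R) (h : ∀ j, |z j| ≤ R) : ‖z‖ ≤ 2 * R := by
  refine (norm_le_of_coord hR h).trans ?_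
  rw [Real.sqrt_le_left (by positivity), mul_pow]
  push_cast
  nlinarith [sq_nonneg R]

/-- 919's form of the single-scale estimate -/
theorem SLat_of_StS (h : ASM.StS) : SLat 2 (1 / 3) := by
  obtain ⟨C, δ, hδ, h⟩ := h
  refine ⟨max C 0 * 2 ^ (2 / 3 : ℝ), δ, hδ, fun m G X t α hα hG hP => ?_⟩
  have h1 := h (2 ^ m * 2) G X t α (by
      have : (1 : ℝ) ≤ 2 ^ m := one_le_pow₀ (by norm_num)
      linarith) hα ⟨hG.meas, hG.bdd, fun η hη => by
      have := norm_le_two_mul (by norm_num : (0:ℝ) ≤ 1 / 8) (hG.supp η hη)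
      linarith⟩ ⟨fun k hk => by
        have := norm_le_two_mul (z := lp k) (by positivity : (0:ℝ) ≤ 2 ^ m) (hP.pos k hk)
        calc ‖ASM.lp k‖ = ‖lp k‖ := rfl
          _ ≤ 2 * 2 ^ m := this
          _ = 2 ^ m * 2 := by ring, hP.t0, fun k hk => by
        have h2 := hP.tR k hk
        have : (0 : ℝ) < 2 ^ m := by positivity
        linarith, hP.big⟩
  have hI : 0 ≤ ∫ η, ‖G η‖ ^ 2 := integral_nonneg fun η => by positivity
  refine h1.trans (mul_le_mul_of_nonneg_right ?_ hI)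
  have e1 : ((2 : ℝ) ^ m * 2) ^ (2 / 3 : ℝ) = (2 ^ m : ℝ) ^ (2 * (1 / 3 : ℝ)) * 2 ^ (2 / 3 : ℝ) := by
    rw [Real.mul_rpow (by positivity) (by positivity)]
    norm_num
  have e2 : ((X.card : ℝ) / (2 ^ m * 2) ^ 2) ^ δ ≤ ((X.card : ℝ) / (2 ^ m) ^ 2) ^ δ := by
    gcongr
    have : (0 : ℝ) < 2 ^ m := by positivity
    linarith
  calc C * (2 ^ m * 2 : ℝ) ^ (2 / 3 : ℝ) * ((X.card : ℝ) / (2 ^ m * 2) ^ 2) ^ δ
      ≤ max C 0 * (2 ^ m * 2 : ℝ) ^ (2 / 3 : ℝ) * ((X.card : ℝ) / (2 ^ m) ^ 2) ^ δ := by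
        have h3 := le_max_left C 0
        have h4 : (0 : ℝ) ≤ max C 0 := le_max_right _ _
        gcongr
    _ = max C 0 * 2 ^ (2 / 3 : ℝ) * (2 ^ m : ℝ) ^ (2 * (1 / 3 : ℝ)) * ((X.card : ℝ) / (2 ^ m) ^ 2) ^ δ := by
        rw [e1]; ring

/-- **the top of the proof**: `StS` gives the positive answer for `n = 2` -/
theorem q1_of_StS (h : ASM.StS) (f g : (Fin 2 → ℝ) → ℂ) (hfg : IsFourierPair f g)
    (hI : Integrable (fun ξ => (1 + nrm ξ ^ 2) ^ (1 / 3 : ℝ) * ‖g ξ‖ ^ 2)) : ConvergesStrongly f g :=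
  conv_of_SLat (by norm_num) (SLat_of_StS h) f g hfg hI

end Vale.Agent.P076.H618
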