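import Vale.Agent.P076.H618.Defs

/-!
# Almost orthogonality over a measurable partition
-/

open MeasureTheory Complex FourierTransform Filter Topology Set
open scoped ENNReal NNReal

namespace Vale.Agent.P076.H618

open Vale.Agent.P076 Vale.Agent.P076.H791 Vale.Agent.P076.R2.H45

variable {n : ℕ} {V : E n → ℝ} {s : E n → ℝ} {h : E n → ℂ} {A A' : Set (E n)} {r : ℕ}

/-- the energy with the density `V` -/
noncomputable def QE (V : E n → ℝ) (s : E n → ℝ) (h : E n → ℂ) (A : Set (E n)) : ℝ≥0∞ :=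
  ∫⁻ η, ENNReal.ofReal (V η) * ‖Phi A s h η‖ₑ ^ 2

lemma Phi_mul_conj (A A' : Set (E n)) (s : E n → ℝ) (h : E n → ℂ) (η : E n) :
    Phi A s h η * starRingEnd ℂ (Phi A' s h η) =
      ∫ p, (h p.1 * ph p.1 (s p.1) 0 η) * starRingEnd ℂ (h p.2 * ph p.2 (s p.2) 0 η)
        ∂(((volume : Measure (E n)).restrict A).prod ((volume : Measure (E n)).restrict A')) := by
  rw [integral_prod_mul (μ := (volume : Measure (E n)).restrict A)
    (ν := (volume : Measure (E n)).restrict A') (fun x => h x * ph x (s x) 0 η)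
    (fun x => starRingEnd ℂ (h x * ph x (s x) 0 η)), integral_conj]
  rfl

lemma Adm.mono (a : Adm r A s h) (hA' : MeasurableSet A') (hs : A' ⊆ A) : Adm r A' s h :=
  ⟨hA', hs.trans a.sub, a.ms, a.bs, a.mh, a.bh⟩

lemma norm_Phi_le (a : Adm r A s h) (η : E n) : ‖Phi A s h η‖ ≤ (volume A).toReal := by
  have h1 := norm_setIntegral_le_of_norm_le_const (μ := (volume : Measure (E n))) (s := A)
    (f := fun x => h x * ph x (s x) 0 η) (C := 1) a.vol (fun x _ => norm_kern_le a.bh x η)
  simpa [Phi, Measure.real] using h1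

lemma integrable_kern (a : Adm r A s h) (η : E n) :
    IntegrableOn (fun x => h x * ph x (s x) 0 η) A := by
  have hm : Measurable fun x : E n => h x * ph x (s x) 0 η := by
    have h1 := (measurable_kern a.ms a.mh).comp (measurable_id.prodMk (measurable_const (a := η)))
    exact h1
  refine Integrable.mono' (g := fun _ => (1 : ℝ)) ?_ hm.aestronglyMeasurable
    (Eventually.of_forall fun x => norm_kern_le a.bh x η)
  exact integrableOn_const (hs := a.vol.ne)

/-- the mixed term -/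
noncomputable def cr (V : E n → ℝ) (s : E n → ℝ) (h : E n → ℂ) (A A' : Set (E n)) : ℂ :=
  ∫ η, (V η : ℂ) * (Phi A s h η * starRingEnd ℂ (Phi A' s h η))

lemma integrable_cr (hV : Integrable V) (a : Adm r A s h) (a' : Adm r A' s h) :
    Integrable fun η => (V η : ℂ) * (Phi A s h η * starRingEnd ℂ (Phi A' s h η)) := by
  have m1 := measurable_Phi (A := A) a.ms a.mh
  have m2 := measurable_Phi (A := A') a.ms a.mh
  have m3 : Measurable fun η => Phi A s h η * starRingEnd ℂ (Phi A' s h η) := by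
    have := Measurable.comp Complex.continuous_conj.measurable m2
    exact m1.mul this
  refine (hV.ofReal (𝕜 := ℂ)).mul_bdd (c := (volume A).toReal * (volume A').toReal) m3.aestronglyMeasurable
    (Eventually.of_forall fun η => ?_)
  rw [norm_mul, RCLike.norm_conj]
  exact mul_le_mul (norm_Phi_le a η) (norm_Phi_le a' η) (norm_nonneg _) ENNReal.toReal_nonneg

lemma cr_eq (hV : Integrable V) (hVm : Measurable V) (a : Adm r A s h) (a' : Adm r A' s h) :
    cr V s h A A' = ∫ p, h p.1 * starRingEnd ℂ (h p.2) * Ker V (p.1 - p.2) (s p.1 - s p.2)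
      ∂(((volume : Measure (E n)).restrict A).prod ((volume : Measure (E n)).restrict A')) := by
  have hfin : IsFiniteMeasure ((volume : Measure (E n)).restrict A) :=
    ⟨by rw [Measure.restrict_apply_univ]; exact a.vol⟩
  have hfin' : IsFiniteMeasure ((volume : Measure (E n)).restrict A') :=
    ⟨by rw [Measure.restrict_apply_univ]; exact a'.vol⟩
  set μ : Measure (E n) := (volume : Measure (E n)).restrict A with hμ
  set μ' : Measure (E n) := (volume : Measure (E n)).restrict A' with hμ'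
  set F : E n → E n × E n → ℂ := fun η p => (V η : ℂ) * ((h p.1 * ph p.1 (s p.1) 0 η) *
      starRingEnd ℂ (h p.2 * ph p.2 (s p.2) 0 η)) with hF
  have hFi : Integrable (Function.uncurry F) ((volume : Measure (E n)).prod (μ.prod μ')) := by
    have h3 : Integrable (fun p : E n × (E n × E n) => ‖V p.1‖ * 1)
        ((volume : Measure (E n)).prod (μ.prod μ')) :=
      hV.norm.mul_prod (integrable_const (1 : ℝ) (μ := μ.prod μ'))
    refine Integrable.mono' h3 ?_ (Eventually.of_forall fun p => ?_)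
    · exact (kern_measurable hVm a.ms a.mh).aestronglyMeasurable
    · simp only [Function.uncurry, hF]
      rw [norm_mul, Complex.norm_real]
      exact mul_le_mul_of_nonneg_left (norm_kk_le a.bh _ _ _) (norm_nonneg _)
  have e1 : ∀ η, ∫ p, F η p ∂(μ.prod μ') = (V η : ℂ) * (Phi A s h η * starRingEnd ℂ (Phi A' s h η)) := by
    intro η
    simp only [hF]
    rw [integral_const_mul, ← Phi_mul_conj]
  have e2 : ∀ p : E n × E n, ∫ η, F η p = h p.1 * starRingEnd ℂ (h p.2) *
      Ker V (p.1 - p.2) (s p.1 - s p.2) := fun p => inner_int V h s p.1 p.2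
  rw [cr]
  have h1 : ∫ η, (V η : ℂ) * (Phi A s h η * starRingEnd ℂ (Phi A' s h η)) =
      ∫ η, ∫ p, F η p ∂(μ.prod μ') :=
    integral_congr_ae (Eventually.of_forall fun η => (e1 η).symm)
  rw [h1, integral_integral_swap hFi]
  exact integral_congr_ae (Eventually.of_forall fun p => e2 p)

lemma QE_eq (hV : Integrable V) (hV0 : ∀ η, 0 ≤ V η) (a : Adm r A s h) :
    QE V s h A = ‖cr V s h A A‖ₑ := by
  have h1 : ∀ η, (V η : ℂ) * (Phi A s h η * starRingEnd ℂ (Phi A s h η)) =
      ((V η * ‖Phi A s h η‖ ^ 2 : ℝ) : ℂ) := by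
    intro η
    rw [Complex.mul_conj, Complex.normSq_eq_norm_sq]
    push_cast
    ring
  have hi : Integrable (fun η => V η * ‖Phi A s h η‖ ^ 2) := by
    have h2 := (integrable_cr hV a a).re
    refine h2.congr (Eventually.of_forall fun η => ?_)
    simp only [h1, RCLike.re_to_complex, Complex.ofReal_re]
  have h0 : 0 ≤ ∫ η, V η * ‖Phi A s h η‖ ^ 2 :=
    integral_nonneg fun η => mul_nonneg (hV0 η) (by positivity)
  rw [cr]
  simp_rw [h1]
  rw [integral_complex_ofReal, ← ofReal_norm, Complex.norm_real, Real.norm_eq_abs, abs_of_nonneg h0,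
    ofReal_integral_eq_lintegral_ofReal hi
      (Eventually.of_forall fun η => mul_nonneg (hV0 η) (by positivity)), QE]
  refine lintegral_congr fun η => ?_
  rw [ENNReal.ofReal_mul (hV0 η), ENNReal.ofReal_pow (norm_nonneg _), ofReal_norm]

lemma mul_le_sq_add_sq (a b : ℝ≥0∞) : a * b ≤ a ^ 2 + b ^ 2 := by
  rcases le_total a b with hab | hab
  · calc a * b ≤ b * b := by gcongr
      _ = b ^ 2 := by ring
      _ ≤ a ^ 2 + b ^ 2 := le_add_self
  · calc a * b ≤ a * a := by gcongr
      _ = a ^ 2 := by ring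
      _ ≤ a ^ 2 + b ^ 2 := le_self_add

lemma measurable_QE (hVm : Measurable V) (a : Adm r A s h) :
    Measurable fun η => ENNReal.ofReal (V η) * ‖Phi A s h η‖ₑ ^ 2 :=
  hVm.ennreal_ofReal.mul ((measurable_Phi (A := A) a.ms a.mh).enorm.pow_const 2)

lemma cr_near (hVm : Measurable V) (hV0 : ∀ η, 0 ≤ V η) (a : Adm r A s h) :
    ‖cr V s h A A'‖ₑ ≤ QE V s h A + QE V s h A' := by
  refine (enorm_integral_le_lintegral_enorm _).trans ?_
  rw [QE, QE, ← lintegral_add_left (measurable_QE hVm a)]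
  refine lintegral_mono fun η => ?_
  have e : ‖(V η : ℂ)‖ₑ = ENNReal.ofReal (V η) := by
    rw [← ofReal_norm, Complex.norm_real, Real.norm_eq_abs, abs_of_nonneg (hV0 η)]
  have e' : ‖starRingEnd ℂ (Phi A' s h η)‖ₑ = ‖Phi A' s h η‖ₑ := by
    rw [← ofReal_norm, RCLike.norm_conj, ofReal_norm]
  rw [enorm_mul, enorm_mul, e, e', ← mul_add]
  gcongr
  exact mul_le_sq_add_sq _ _

lemma cr_far (hV : Integrable V) (hVm : Measurable V) (a : Adm r A s h) (a' : Adm r A' s h)
    {B : E n → ℝ≥0∞} (hB : Measurable B)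
    (hK : ∀ x ∈ A, ∀ y ∈ A', ‖Ker V (x - y) (s x - s y)‖ₑ ≤ B (x - y)) :
    ‖cr V s h A A'‖ₑ ≤ ∫⁻ x in A, ∫⁻ y in A', B (x - y) := by
  rw [cr_eq hV hVm a a']
  refine (enorm_integral_le_lintegral_enorm _).trans ?_
  have hm : Measurable fun p : E n × E n => B (p.1 - p.2) := hB.comp (measurable_fst.sub measurable_snd)
  have hfin' : IsFiniteMeasure ((volume : Measure (E n)).restrict A') :=
    ⟨by rw [Measure.restrict_apply_univ]; exact a'.vol⟩
  rw [← lintegral_prod _ hm.aemeasurable]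
  refine lintegral_mono_ae ?_
  rw [Measure.prod_restrict]
  refine (ae_restrict_iff' (a.mA.prod a'.mA)).2 (Eventually.of_forall fun p hp => ?_)
  rw [enorm_mul, enorm_mul]
  have h1 : ‖h p.1‖ₑ ≤ 1 := by
    rw [← ofReal_norm, ← ENNReal.ofReal_one]
    exact ENNReal.ofReal_le_ofReal (a.bh _)
  have h2 : ‖starRingEnd ℂ (h p.2)‖ₑ ≤ 1 := by
    rw [← ofReal_norm, RCLike.norm_conj, ← ENNReal.ofReal_one]
    exact ENNReal.ofReal_le_ofReal (a.bh _)
  calc ‖h p.1‖ₑ * ‖starRingEnd ℂ (h p.2)‖ₑ * ‖Ker V (p.1 - p.2) (s p.1 - s p.2)‖ₑ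
      ≤ 1 * 1 * B (p.1 - p.2) := by
        gcongr
        exact hK _ hp.1 _ hp.2
    _ = B (p.1 - p.2) := by ring

/-- the cells -/
def cell {ι : Type*} (A : Set (E n)) (c : E n → ι) (i : ι) : Set (E n) := A ∩ c ⁻¹' {i}

section ao

variable {ι : Type*} {T : Finset ι} {c : E n → ι}

lemma iUnion_cell (hcT : ∀ x ∈ A, c x ∈ T) : ⋃ i ∈ T, cell A c i = A := by
  ext x
  simp only [cell, mem_iUnion, mem_inter_iff, mem_preimage, mem_singleton_iff, exists_prop]
  constructor
  · rintro ⟨i, -, hx, -⟩; exact hx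
  · exact fun hx => ⟨c x, hcT x hx, hx, rfl⟩

lemma disj_cell : (T : Set ι).PairwiseDisjoint (cell A c) := by
  intro i _ j _ hij
  refine Set.disjoint_left.2 fun x hx hx' => hij ?_
  have h1 : c x = i := hx.2
  have h2 : c x = j := hx'.2
  rw [← h1, h2]

lemma lintegral_cells (hcm : ∀ i ∈ T, MeasurableSet (cell A c i)) (hcT : ∀ x ∈ A, c x ∈ T)
    (f : E n → ℝ≥0∞) : ∫⁻ x in A, f x = ∑ i ∈ T, ∫⁻ x in cell A c i, f x := by
  conv_lhs => rw [← iUnion_cell hcT]
  exact lintegral_biUnion_finset disj_cell hcm f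

lemma vol_cells (hcm : ∀ i ∈ T, MeasurableSet (cell A c i)) (hcT : ∀ x ∈ A, c x ∈ T) :
    volume A = ∑ i ∈ T, volume (cell A c i) := by
  conv_lhs => rw [← iUnion_cell hcT]
  exact measure_biUnion_finset disj_cell hcm

lemma Phi_cells (a : Adm r A s h) (hcm : ∀ i ∈ T, MeasurableSet (cell A c i))
    (hcT : ∀ x ∈ A, c x ∈ T) (η : E n) : Phi A s h η = ∑ i ∈ T, Phi (cell A c i) s h η := by
  rw [Phi]
  conv_lhs => rw [← iUnion_cell hcT]
  exact integral_biUnion_finset T hcm disj_cell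
    fun i _ => (integrable_kern a η).mono_set inter_subset_left

lemma cr_cells (hV : Integrable V) (a : Adm r A s h) (hcm : ∀ i ∈ T, MeasurableSet (cell A c i))
    (hcT : ∀ x ∈ A, c x ∈ T) :
    cr V s h A A = ∑ i ∈ T, ∑ j ∈ T, cr V s h (cell A c i) (cell A c j) := by
  have ac : ∀ i ∈ T, Adm r (cell A c i) s h := fun i hi => Adm.mono a (hcm i hi) inter_subset_left
  simp only [cr]
  have e : ∀ i ∈ T, ∑ j ∈ T, ∫ η, (V η : ℂ) * (Phi (cell A c i) s h η *
      starRingEnd ℂ (Phi (cell A c j) s h η)) = ∫ η, ∑ j ∈ T, (V η : ℂ) * (Phi (cell A c i) s h η *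
      starRingEnd ℂ (Phi (cell A c j) s h η)) := fun i hi =>
    (integral_finsetSum _ fun j hj => integrable_cr hV (ac i hi) (ac j hj)).symm
  rw [Finset.sum_congr rfl e, ← integral_finsetSum _ fun i hi =>
    integrable_finsetSum _ fun j hj => integrable_cr hV (ac i hi) (ac j hj)]
  refine integral_congr_ae (Eventually.of_forall fun η => ?_)
  simp only
  rw [Phi_cells a hcm hcT η, map_sum, Finset.sum_mul_sum, Finset.mul_sum]
  exact Finset.sum_congr rfl fun i _ => by rw [Finset.mul_sum]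

/-- **almost orthogonality** -/
theorem ao (hV : Integrable V) (hVm : Measurable V) (hV0 : ∀ η, 0 ≤ V η) (a : Adm r A s h)
    (hcm : ∀ i ∈ T, MeasurableSet (cell A c i)) (hcT : ∀ x ∈ A, c x ∈ T)
    (near : ι → ι → Prop) [DecidableRel near] (hsym : ∀ i j, near i j → near j i) (m : ℕ)
    (hm : ∀ i ∈ T, (T.filter (near i)).card ≤ m) {B : E n → ℝ≥0∞} (hB : Measurable B)
    (hK : ∀ x ∈ A, ∀ y ∈ A, ¬ near (c x) (c y) → ‖Ker V (x - y) (s x - s y)‖ₑ ≤ B (x - y)) :
    QE V s h A ≤ 2 * m * ∑ i ∈ T, QE V s h (cell A c i) +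
      (∫⁻ z in Metric.ball 0 (2 * r), B z) * volume A := by
  have ac : ∀ i ∈ T, Adm r (cell A c i) s h := fun i hi => Adm.mono a (hcm i hi) inter_subset_left
  rw [QE_eq hV hV0 a, cr_cells hV a hcm hcT]
  have h1 : ∀ i ∈ T, ∀ j ∈ T, ‖cr V s h (cell A c i) (cell A c j)‖ₑ ≤
      (if near i j then QE V s h (cell A c i) else 0) + (if near i j then QE V s h (cell A c j) else 0)
        + ∫⁻ x in cell A c i, ∫⁻ y in cell A c j, B (x - y) := by
    intro i hi j hj
    split_ifs with hn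
    · exact (cr_near hVm hV0 (ac i hi)).trans le_self_add
    · rw [add_zero, zero_add]
      refine cr_far hV hVm (ac i hi) (ac j hj) hB fun x hx y hy => hK x hx.1 y hy.1 ?_
      have e1 : c x = i := hx.2
      have e2 : c y = j := hy.2
      rwa [e1, e2]
  have h2 : ‖∑ i ∈ T, ∑ j ∈ T, cr V s h (cell A c i) (cell A c j)‖ₑ ≤
      ∑ i ∈ T, ∑ j ∈ T, ‖cr V s h (cell A c i) (cell A c j)‖ₑ :=
    (enorm_sum_le _ _).trans (Finset.sum_le_sum fun i _ => enorm_sum_le _ _)
  refine h2.trans ((Finset.sum_le_sum fun i hi => Finset.sum_le_sum fun j hj => h1 i hi j hj).trans ?_)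
  simp_rw [Finset.sum_add_distrib]
  have h3 : ∑ i ∈ T, ∑ j ∈ T, (if near i j then QE V s h (cell A c i) else 0) ≤
      m * ∑ i ∈ T, QE V s h (cell A c i) := by
    rw [Finset.mul_sum]
    refine Finset.sum_le_sum fun i hi => ?_
    rw [← Finset.sum_filter, Finset.sum_const, nsmul_eq_mul]
    gcongr
    exact hm i hi
  have h4 : ∑ i ∈ T, ∑ j ∈ T, (if near i j then QE V s h (cell A c j) else 0) ≤
      m * ∑ i ∈ T, QE V s h (cell A c i) := by
    rw [Finset.sum_comm, Finset.mul_sum]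
    refine Finset.sum_le_sum fun i hi => ?_
    rw [← Finset.sum_filter, Finset.sum_const, nsmul_eq_mul]
    gcongr
    refine le_trans (Finset.card_le_card ?_) (hm i hi)
    intro j hj
    rw [Finset.mem_filter] at hj ⊢
    exact ⟨hj.1, hsym _ _ hj.2⟩
  have h5 : ∑ i ∈ T, ∑ j ∈ T, ∫⁻ x in cell A c i, ∫⁻ y in cell A c j, B (x - y) ≤
      (∫⁻ z in Metric.ball 0 (2 * r), B z) * volume A := by
    have hm' : Measurable fun p : E n × E n => B (p.1 - p.2) := hB.comp (measurable_fst.sub measurable_snd)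
    have hm2 : ∀ A' : Set (E n), Measurable fun x => ∫⁻ y in A', B (x - y) := fun A' =>
      hm'.lintegral_prod_right'
    have h6 : ∑ i ∈ T, ∑ j ∈ T, ∫⁻ x in cell A c i, ∫⁻ y in cell A c j, B (x - y) =
        ∫⁻ x in A, ∫⁻ y in A, B (x - y) := by
      rw [lintegral_cells hcm hcT]
      refine Finset.sum_congr rfl fun i _ => ?_
      rw [← lintegral_finsetSum _ fun j _ => hm2 _]
      refine lintegral_congr fun x => ?_
      rw [lintegral_cells hcm hcT]
    rw [h6]
    have hfin : IsFiniteMeasure ((volume : Measure (E n)).restrict A) :=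
      ⟨by rw [Measure.restrict_apply_univ]; exact a.vol⟩
    have h7 := conv_le a.sub hB a.mA
    rwa [lintegral_prod _ hm'.aemeasurable] at h7
  calc _ ≤ m * ∑ i ∈ T, QE V s h (cell A c i) + m * ∑ i ∈ T, QE V s h (cell A c i) +
        (∫⁻ z in Metric.ball 0 (2 * r), B z) * volume A := add_le_add (add_le_add h3 h4) h5
    _ = _ := by ring

end ao

end Vale.Agent.P076.H618
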