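import Vale.Agent.P076.H618.Dual

/-!
# Lattice translates; dilations
-/

open MeasureTheory Complex FourierTransform Filter Topology Set
open scoped ENNReal NNReal

namespace Vale.Agent.P076.H618

open Vale.Agent.P076 Vale.Agent.P076.H791 Vale.Agent.P076.R2.H45

variable {n : ℕ}

/-- the integer part -/
noncomputable def fl (x : E n) : Fin n → ℤ := fun i => ⌊x i⌋

lemma measurable_fl : Measurable (fl (n := n)) := by
  refine measurable_pi_iff.2 fun i => ?_
  have h1 : Measurable fun x : E n => x i :=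
    (measurable_pi_apply i).comp (PiLp.continuous_ofLp 2 (fun _ : Fin n => ℝ)).measurable
  exact Int.measurable_floor.comp h1

lemma lp_apply (κ : Fin n → ℤ) (i : Fin n) : lp κ i = κ i := rfl

lemma fl_lp_add (κ : Fin n → ℤ) (y : E n) : fl (lp κ + y) = κ + fl y := by
  ext i
  simp only [fl, PiLp.add_apply, lp_apply, Pi.add_apply]
  exact Int.floor_intCast_add _ _

lemma volume_fl_zero : volume (fl (n := n) ⁻¹' {0}) = 1 := by
  have h1 : fl (n := n) ⁻¹' {0} = (WithLp.ofLp : E n → Fin n → ℝ) ⁻¹' (Set.pi univ fun _ => Ico (0 : ℝ) 1) := by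
    ext x
    simp only [mem_preimage, mem_singleton_iff, Set.mem_pi, mem_univ, true_implies, mem_Ico]
    constructor
    · intro hx i
      have h2 : fl x i = 0 := by rw [hx]; rfl
      exact Int.floor_eq_zero_iff.1 h2
    · intro hx
      ext i
      exact Int.floor_eq_zero_iff.2 (hx i)
  rw [h1, (PiLp.volume_preserving_ofLp (Fin n)).measure_preimage
    (MeasurableSet.univ_pi fun _ => measurableSet_Ico).nullMeasurableSet, Real.volume_pi_Ico]
  simp

lemma vol_lattice {D : Set (E n)} (hD : MeasurableSet D) {M : ℝ≥0∞}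
    (h : ∀ y : E n, ∀ X : Finset (Fin n → ℤ), fl y = 0 → (∀ κ ∈ X, lp κ + y ∈ D) → (X.card : ℝ≥0∞) ≤ M) :
    volume D ≤ M := by
  classical
  have e1 : D = ⋃ κ : Fin n → ℤ, D ∩ fl ⁻¹' {κ} := by
    ext x; simp
  have e2 : volume D = ∑' κ : Fin n → ℤ, volume (D ∩ fl ⁻¹' {κ}) := by
    conv_lhs => rw [e1]
    refine measure_iUnion ?_ fun κ => hD.inter (measurable_fl (measurableSet_singleton κ))
    intro κ κ' hκ
    refine Set.disjoint_left.2 fun x hx hx' => hκ ?_
    have h1 : fl x = κ := hx.2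
    have h2 : fl x = κ' := hx'.2
    rw [← h1, h2]
  have hm : ∀ κ : Fin n → ℤ, Measurable fun y : E n => D.indicator (fun _ => (1 : ℝ≥0∞)) (lp κ + y) :=
    fun κ => (measurable_const.indicator hD).comp (measurable_const_add _)
  have e3 : ∀ κ : Fin n → ℤ, volume (D ∩ fl ⁻¹' {κ}) =
      ∫⁻ y in fl ⁻¹' {0}, D.indicator (fun _ => (1 : ℝ≥0∞)) (lp κ + y) := by
    intro κ
    rw [← measure_preimage_add volume (lp κ) (D ∩ fl ⁻¹' {κ})]
    have e4 : (fun y => lp κ + y) ⁻¹' (D ∩ fl ⁻¹' {κ}) = ((fun y => lp κ + y) ⁻¹' D) ∩ fl ⁻¹' {0} := by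
      ext y
      simp only [mem_preimage, mem_inter_iff, mem_singleton_iff, fl_lp_add, add_eq_left]
    rw [e4]
    have e5 : (fun y : E n => D.indicator (fun _ => (1 : ℝ≥0∞)) (lp κ + y)) =
        ((fun y => lp κ + y) ⁻¹' D).indicator fun _ => (1 : ℝ≥0∞) := by
      ext y
      simp only [indicator, mem_preimage]
    rw [e5, lintegral_indicator ((measurable_const_add _) hD), setLIntegral_const, one_mul,
      Measure.restrict_apply ((measurable_const_add _) hD)]
  rw [e2, tsum_congr e3, ← lintegral_tsum fun κ => (hm κ).aemeasurable]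
  have h5 : ∀ y ∈ fl (n := n) ⁻¹' {0}, ∑' κ : Fin n → ℤ, D.indicator (fun _ => (1 : ℝ≥0∞)) (lp κ + y) ≤ M := by
    intro y hy
    rw [ENNReal.tsum_eq_iSup_sum]
    refine iSup_le fun X => ?_
    have h6 : ∑ κ ∈ X, D.indicator (fun _ => (1 : ℝ≥0∞)) (lp κ + y) =
        ((X.filter fun κ => lp κ + y ∈ D).card : ℝ≥0∞) := by
      simp only [indicator]
      rw [Finset.sum_ite, Finset.sum_const_zero, add_zero, Finset.sum_const, nsmul_eq_mul, mul_one]
    rw [h6]
    exact h y _ hy fun κ hκ => (Finset.mem_filter.1 hκ).2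
  calc ∫⁻ y in fl ⁻¹' {0}, ∑' κ : Fin n → ℤ, D.indicator (fun _ => (1 : ℝ≥0∞)) (lp κ + y)
      ≤ ∫⁻ y in fl (n := n) ⁻¹' {0}, M := setLIntegral_mono' (measurable_fl (measurableSet_singleton 0)) h5
    _ = M := by rw [setLIntegral_const, volume_fl_zero, mul_one]

/-- dilation of a profile -/
noncomputable def dil (N : ℝ) (G : E n → ℂ) (η : E n) : ℂ := ((N ^ n : ℝ) : ℂ) * G (N • η)

lemma evo_dil {N : ℝ} (hN : 0 < N) (G : E n → ℂ) (x : E n) (t : ℝ) :
    evo (dil N G) x t 0 = evo G (N⁻¹ • x) (t / N ^ 2) 0 := by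
  rw [evo_eq, evo_eq]
  have h1 := Measure.integral_comp_smul_of_nonneg (volume : Measure (E n))
    (fun η => ph (N⁻¹ • x) (t / N ^ 2) 0 η * G η) N (hR := hN.le)
  rw [finrank_euclideanSpace, Fintype.card_fin] at h1
  have h2 : ∀ η : E n, ph x t 0 η * dil N G η =
      ((N ^ n : ℝ) : ℂ) * (ph (N⁻¹ • x) (t / N ^ 2) 0 (N • η) * G (N • η)) := by
    intro η
    have e : ph (N⁻¹ • x) (t / N ^ 2) 0 (N • η) = ph x t 0 η := by
      unfold ph
      rw [inner_smul_left, inner_smul_right, norm_smul, Real.norm_eq_abs, abs_of_pos hN]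
      congr 2
      · congr 2
        simp only [conj_trivial]
        field_simp
      · simp
    rw [e, dil]
    ring
  simp_rw [h2]
  rw [integral_const_mul, h1, Complex.real_smul, ← mul_assoc, ← Complex.ofReal_mul,
    mul_inv_cancel₀ (by positivity), Complex.ofReal_one, one_mul]

lemma energy_dil {N : ℝ} (hN : 0 < N) (G : E n → ℂ) :
    ∫ η, ‖dil N G η‖ ^ 2 = N ^ n * ∫ η, ‖G η‖ ^ 2 := by
  have h1 := Measure.integral_comp_smul_of_nonneg (volume : Measure (E n))
    (fun η => ‖G η‖ ^ 2) N (hR := hN.le)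
  rw [finrank_euclideanSpace, Fintype.card_fin] at h1
  have h2 : ∀ η : E n, ‖dil N G η‖ ^ 2 = (N ^ n) ^ 2 * ‖G (N • η)‖ ^ 2 := by
    intro η
    rw [dil, norm_mul, Complex.norm_real, Real.norm_eq_abs, abs_of_pos (by positivity), mul_pow]
  simp_rw [h2]
  rw [integral_const_mul, h1, smul_eq_mul]
  have : N ^ n ≠ 0 := by positivity
  field_simp

/-- normalised profile for the translates -/
noncomputable def nrmz (N : ℝ) (w : E n) (τ : ℝ) (G : E n → ℂ) : E n → ℂ := dil N (trl (-w) (sft τ G))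

lemma evo_nrmz {N : ℝ} (hN : 0 < N) (w : E n) (τ : ℝ) (G : E n → ℂ) (x : E n) (t : ℝ) :
    evo (nrmz N w τ G) x t 0 = evo G (N⁻¹ • x + w) (t / N ^ 2 + τ) 0 := by
  rw [nrmz, evo_dil hN, evo_trl, evo_sft, sub_neg_eq_add]

lemma energy_nrmz {N : ℝ} (hN : 0 < N) (w : E n) (τ : ℝ) (G : E n → ℂ) :
    ∫ η, ‖nrmz N w τ G η‖ ^ 2 = N ^ n * ∫ η, ‖G η‖ ^ 2 := by
  rw [nrmz, energy_dil hN]
  simp_rw [norm_trl, norm_sft]

lemma prof_nrmz {N : ℝ} (hN : 0 < N) (w : E n) (τ : ℝ) {G : E n → ℂ} (hG : Measurable G)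
    (hb : ∃ b : ℝ, ∀ η, ‖G η‖ ≤ b) (hs : ∀ η, G η ≠ 0 → ∀ i, |η i| ≤ N / 8) : Prof (nrmz N w τ G) where
  meas := by
    unfold nrmz dil trl sft
    fun_prop
  bdd := by
    obtain ⟨b, hb⟩ := hb
    refine ⟨N ^ n * b, fun η => ?_⟩
    rw [nrmz, dil, norm_mul, Complex.norm_real, Real.norm_eq_abs, abs_of_pos (by positivity),
      norm_trl, norm_sft]
    exact mul_le_mul_of_nonneg_left (hb _) (by positivity)
  supp := by
    intro η hη i
    have h1 : G (N • η) ≠ 0 := by
      intro h0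
      apply hη
      rw [nrmz, dil, trl, sft, h0]
      simp
    have h2 := hs _ h1 i
    rw [PiLp.smul_apply, smul_eq_mul, abs_mul, abs_of_pos hN] at h2
    have h3 : N * |η i| ≤ N * (1 / 8) := by linarith
    exact le_of_mul_le_mul_left h3 hN

end Vale.Agent.P076.H618
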