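import Vale.Agent.P076.H618.Lat

/-!
# The energy bound for small cubes and short time intervals
-/

open MeasureTheory Complex FourierTransform Filter Topology Set
open scoped ENNReal NNReal

namespace Vale.Agent.P076.H618

open Vale.Agent.P076 Vale.Agent.P076.H791 Vale.Agent.P076.R2.H45

variable {n : ℕ}

/-- normal form of the hypothesis -/
def SN (n : ℕ) (s C δ : ℝ) : Prop :=
  ∀ (m : ℕ) (G : E n → ℂ) (X : Finset (Fin n → ℤ)) (t : (Fin n → ℤ) → ℝ) (α : ℝ),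
    0 ≤ α → Prof G → Pt (2 ^ m) G X t α →
      (X.card : ℝ) ^ (1 - δ) * α ^ 2 ≤ C * (2 ^ m : ℝ) ^ (2 * s - n * δ) * ∫ η, ‖G η‖ ^ 2

lemma card_le {m : ℕ} {X : Finset (Fin n → ℤ)} (hX : ∀ x ∈ X, ∀ i, |(x i : ℝ)| ≤ 2 ^ m) :
    (X.card : ℝ) ≤ 3 ^ n * (2 ^ m) ^ n := by
  have h1 : X ⊆ Fintype.piFinset fun _ => Finset.Icc (-(2 ^ m : ℤ)) (2 ^ m) := by
    intro x hx
    rw [Fintype.mem_piFinset]
    intro i
    have h2 := abs_le.1 (hX x hx i)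
    rw [Finset.mem_Icc]
    constructor
    · have h3 := h2.1
      exact_mod_cast h3
    · have h3 := h2.2
      exact_mod_cast h3
  have h2 := Finset.card_le_card h1
  rw [Fintype.card_piFinset] at h2
  simp only [Int.card_Icc, Finset.prod_const, Finset.card_univ, Fintype.card_fin] at h2
  have h3 : ((2 ^ m + 1 - -(2 ^ m : ℤ)).toNat : ℝ) = 2 * 2 ^ m + 1 := by
    have h4 : (0 : ℤ) ≤ 2 ^ m + 1 - -(2 ^ m : ℤ) := by
      have : (0 : ℤ) ≤ 2 ^ m := by positivity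
      linarith
    have h5 : ((2 ^ m + 1 - -(2 ^ m : ℤ)).toNat : ℤ) = 2 ^ m + 1 - -(2 ^ m : ℤ) := Int.toNat_of_nonneg h4
    have h6 : ((2 ^ m + 1 - -(2 ^ m : ℤ)).toNat : ℝ) = ((2 ^ m + 1 - -(2 ^ m : ℤ) : ℤ) : ℝ) := by
      exact_mod_cast h5
    rw [h6]
    push_cast
    ring
  calc (X.card : ℝ) ≤ (((2 ^ m + 1 - -(2 ^ m : ℤ)).toNat ^ n : ℕ) : ℝ) := by exact_mod_cast h2
    _ = (2 * 2 ^ m + 1) ^ n := by push_cast; rw [h3]
    _ ≤ (3 * 2 ^ m) ^ n := by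
        have h4 : (1 : ℝ) ≤ 2 ^ m := one_le_pow₀ (by norm_num)
        gcongr
        linarith
    _ = 3 ^ n * (2 ^ m) ^ n := by rw [mul_pow]

lemma normal {s : ℝ} (hs : 0 < s) (h : SLat n s) :
    ∃ C δ : ℝ, 0 < C ∧ 0 < δ ∧ δ < 1 ∧ n * δ < 2 * s ∧ SN n s C δ := by
  obtain ⟨C₀, δ₀, hδ₀, h⟩ := h
  set δ : ℝ := min δ₀ (min (1 / 2) (s / (n + 1))) with hδ
  have hδp : 0 < δ := lt_min hδ₀ (lt_min (by norm_num) (by positivity))
  have hδ1 : δ ≤ δ₀ := min_le_left _ _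
  have hδ2 : δ ≤ 1 / 2 := (min_le_right _ _).trans (min_le_left _ _)
  have hδ3 : δ ≤ s / (n + 1) := (min_le_right _ _).trans (min_le_right _ _)
  have hn0 : (0 : ℝ) ≤ n := Nat.cast_nonneg n
  have hns : n * δ < 2 * s := by
    have h1 : n * δ ≤ n * (s / (n + 1)) := mul_le_mul_of_nonneg_left hδ3 hn0
    have h2 : n * (s / (n + 1)) ≤ s := by
      rw [← mul_div_assoc, div_le_iff₀ (by positivity)]
      nlinarith
    linarith
  refine ⟨max C₀ 1 * (3 ^ n) ^ (δ₀ - δ), δ, by positivity, hδp, by linarith, hns, ?_⟩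
  intro m G X t α hα hG hP
  have hI : 0 ≤ ∫ η, ‖G η‖ ^ 2 := integral_nonneg fun η => by positivity
  rcases Nat.eq_zero_or_pos X.card with h0 | h0
  · rw [h0, Nat.cast_zero, Real.zero_rpow (by linarith), zero_mul]
    positivity
  have hN : (0 : ℝ) < X.card := by exact_mod_cast h0
  have h1 := h m G X t α hα hG hP
  have hR : (0 : ℝ) < (2 ^ m) ^ n := by positivity
  have h2 : (X.card : ℝ) / (2 ^ m) ^ n ≤ 3 ^ n := by
    rw [div_le_iff₀ hR]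
    exact card_le hP.pos
  have hq0 : (0 : ℝ) < (X.card : ℝ) / (2 ^ m) ^ n := by positivity
  have hR2 : (0 : ℝ) < (2 : ℝ) ^ m := by positivity
  have hδd : 0 ≤ δ₀ - δ := by linarith
  have h3 : ((X.card : ℝ) / (2 ^ m) ^ n) ^ δ₀ ≤ ((X.card : ℝ) / (2 ^ m) ^ n) ^ δ * (3 ^ n) ^ (δ₀ - δ) := by
    have e : ((X.card : ℝ) / (2 ^ m) ^ n) ^ δ₀ =
        ((X.card : ℝ) / (2 ^ m) ^ n) ^ δ * ((X.card : ℝ) / (2 ^ m) ^ n) ^ (δ₀ - δ) := by
      rw [← Real.rpow_add hq0, add_sub_cancel]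
    rw [e]
    gcongr
  have h4 : α ^ 2 * X.card ≤ max C₀ 1 * (2 ^ m : ℝ) ^ (2 * s) *
      (((X.card : ℝ) / (2 ^ m) ^ n) ^ δ * (3 ^ n) ^ (δ₀ - δ)) * ∫ η, ‖G η‖ ^ 2 := by
    refine h1.trans ?_
    have h5 : C₀ * (2 ^ m : ℝ) ^ (2 * s) * ((X.card : ℝ) / (2 ^ m) ^ n) ^ δ₀ ≤
        max C₀ 1 * (2 ^ m : ℝ) ^ (2 * s) * ((X.card : ℝ) / (2 ^ m) ^ n) ^ δ₀ := by
      gcongr
      exact le_max_left _ _
    have h6 : max C₀ 1 * (2 ^ m : ℝ) ^ (2 * s) * ((X.card : ℝ) / (2 ^ m) ^ n) ^ δ₀ ≤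
        max C₀ 1 * (2 ^ m : ℝ) ^ (2 * s) * (((X.card : ℝ) / (2 ^ m) ^ n) ^ δ * (3 ^ n) ^ (δ₀ - δ)) := by
      gcongr
    exact mul_le_mul_of_nonneg_right (h5.trans h6) hI
  have e1 : ((X.card : ℝ) / (2 ^ m) ^ n) ^ δ = (X.card : ℝ) ^ δ * (2 ^ m : ℝ) ^ (-(n * δ)) := by
    rw [Real.div_rpow hN.le hR.le, Real.rpow_neg (by positivity), ← Real.rpow_natCast ((2 : ℝ) ^ m) n,
      ← Real.rpow_mul (by positivity)]
    rfl
  have hNδ : 0 < (X.card : ℝ) ^ δ := by positivity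
  rw [e1] at h4
  have e3 : α ^ 2 * (X.card : ℝ) = (X.card : ℝ) ^ δ * ((X.card : ℝ) ^ (1 - δ) * α ^ 2) := by
    rw [← mul_assoc, ← Real.rpow_add hN, add_sub_cancel, Real.rpow_one]
    ring
  have e4 : (2 ^ m : ℝ) ^ (2 * s - n * δ) = (2 ^ m : ℝ) ^ (2 * s) * (2 ^ m : ℝ) ^ (-(n * δ)) := by
    rw [← Real.rpow_add hR2, sub_eq_add_neg]
  rw [e3] at h4
  refine le_of_mul_le_mul_left (h4.trans (le_of_eq ?_)) hNδ
  rw [e4]
  ring

lemma vol_affine {N : ℝ} (hN : 0 < N) (z : E n) (D : Set (E n)) :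
    volume D = ENNReal.ofReal ((N ^ n)⁻¹) * volume {y : E n | N⁻¹ • y + z ∈ D} := by
  have e1 : {y : E n | N⁻¹ • y + z ∈ D} = (fun y => N⁻¹ • y) ⁻¹' ((fun y => y + z) ⁻¹' D) := rfl
  rw [e1, Measure.addHaar_preimage_smul volume (inv_ne_zero hN.ne'), measure_preimage_add_right,
    finrank_euclideanSpace, Fintype.card_fin, ← mul_assoc, ← ENNReal.ofReal_mul (by positivity)]
  have : (N ^ n)⁻¹ * |((N⁻¹) ^ n)⁻¹| = 1 := by
    rw [inv_pow, inv_inv, abs_of_pos (by positivity)]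
    field_simp
  rw [this, ENNReal.ofReal_one, one_mul]

theorem weak {s C δ : ℝ} (hS : SN n s C δ) (hC : 0 < C) (hδ1 : δ < 1) {k j : ℕ} (hjk : j ≤ k)
    {G : E n → ℂ} (hGm : Measurable G) (hGb : ∃ b : ℝ, ∀ η, ‖G η‖ ≤ b)
    (hGs : ∀ η, G η ≠ 0 → ∀ i, |η i| ≤ 2 ^ (k + 2)) {D : Set (E n)} (hD : MeasurableSet D)
    {σ : E n → ℝ} {z₀ : E n} {τ₀ : ℝ} (hDz : ∀ x ∈ D, ∀ i, |x i - z₀ i| ≤ ((2 : ℝ) ^ j)⁻¹)
    (hDs : ∀ x ∈ D, τ₀ ≤ σ x ∧ σ x ≤ τ₀ + ((2 : ℝ) ^ (k + j))⁻¹) {α : ℝ} (hα : 0 < α)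
    (hb : ∀ x ∈ D, α ≤ ‖evo G x (σ x) 0‖) :
    volume D ≤ ENNReal.ofReal ((C * (2 ^ (k + 5) : ℝ) ^ (n * δ) * (2 ^ (k - j + 10) : ℝ) ^ (2 * s - n * δ) *
      (∫ η, ‖G η‖ ^ 2) / α ^ 2) ^ (1 / (1 - δ))) := by
  set N : ℝ := 2 ^ (k + 5) with hN
  have hN0 : 0 < N := by positivity
  set m : ℕ := k - j + 10 with hm
  have hI : 0 ≤ ∫ η, ‖G η‖ ^ 2 := integral_nonneg fun η => by positivity
  set W : ℝ := (C * (2 ^ m : ℝ) ^ (2 * s - n * δ) * (N ^ n * ∫ η, ‖G η‖ ^ 2) / α ^ 2) ^ (1 / (1 - δ)) with hW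
  have hD' : MeasurableSet {y : E n | N⁻¹ • y + z₀ ∈ D} :=
    ((measurable_const_smul N⁻¹).add_const z₀) hD
  have hkj : (2 : ℝ) ^ (k + 5) * ((2 : ℝ) ^ j)⁻¹ = 2 ^ (k - j + 5) := by
    have : k + 5 = (k - j + 5) + j := by omega
    rw [this, pow_add]
    field_simp
  have h1 : volume {y : E n | N⁻¹ • y + z₀ ∈ D} ≤ ENNReal.ofReal W := by
    refine vol_lattice hD' fun y X hy hX => ?_
    have hy' : ∀ i, 0 ≤ y i ∧ y i < 1 := by
      intro i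
      have h2 : fl y i = 0 := by rw [hy]; rfl
      exact Int.floor_eq_zero_iff.1 h2
    have hP : Pt (2 ^ m) (nrmz N (N⁻¹ • y + z₀) τ₀ G) X
        (fun κ => N ^ 2 * (σ (N⁻¹ • (lp κ + y) + z₀) - τ₀)) α := by
      refine ⟨fun κ hκ i => ?_, fun κ hκ => ?_, fun κ hκ => ?_, fun κ hκ => ?_⟩
      · have h2 := hDz _ (hX κ hκ) i
        simp only [PiLp.add_apply, PiLp.smul_apply, smul_eq_mul, lp_apply, add_sub_cancel_right] at h2
        rw [abs_mul, abs_of_pos (by positivity : (0:ℝ) < N⁻¹), inv_mul_le_iff₀ hN0, hkj] at h2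
        have h3 := hy' i
        have h4 := abs_le.1 h2
        have h5 : (1 : ℝ) ≤ 2 ^ (k - j + 5) := one_le_pow₀ (by norm_num)
        have h6 : (2 : ℝ) ^ m = 2 ^ (k - j + 5) * 32 := by
          rw [hm, show k - j + 10 = (k - j + 5) + 5 by ring, pow_add]; norm_num
        rw [abs_le, h6]
        constructor <;> linarith [h4.1, h4.2]
      · have h2 := (hDs _ (hX κ hκ)).1
        have : 0 ≤ σ (N⁻¹ • (lp κ + y) + z₀) - τ₀ := by linarith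
        positivity
      · have h2 := (hDs _ (hX κ hκ)).2
        have h3 : σ (N⁻¹ • (lp κ + y) + z₀) - τ₀ ≤ ((2 : ℝ) ^ (k + j))⁻¹ := by linarith
        calc N ^ 2 * (σ (N⁻¹ • (lp κ + y) + z₀) - τ₀) ≤ N ^ 2 * ((2 : ℝ) ^ (k + j))⁻¹ := by gcongr
          _ = 2 ^ m := by
            have e : (2 * (k + 5)) = m + (k + j) := by omega
            rw [hN, ← pow_mul, mul_comm (k + 5) 2, e, pow_add]
            field_simp
      · rw [evo_nrmz hN0]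
        have e1 : N⁻¹ • lp κ + (N⁻¹ • y + z₀) = N⁻¹ • (lp κ + y) + z₀ := by
          rw [smul_add, add_assoc]
        have e2 : N ^ 2 * (σ (N⁻¹ • (lp κ + y) + z₀) - τ₀) / N ^ 2 + τ₀ = σ (N⁻¹ • (lp κ + y) + z₀) := by
          field_simp
          ring
        rw [e1, e2]
        exact hb _ (hX κ hκ)
    have hPr : Prof (nrmz N (N⁻¹ • y + z₀) τ₀ G) := by
      refine prof_nrmz hN0 _ _ hGm hGb fun η hη i => (hGs η hη i).trans (le_of_eq ?_)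
      have h8 : (2 : ℝ) ^ (k + 5) = 2 ^ (k + 2) * 8 := by
        rw [show k + 5 = (k + 2) + 3 by ring, pow_add _ (k + 2) 3]
        norm_num
      rw [hN, h8]
      ring
    have h2 := hS m _ X _ α hα.le hPr hP
    rw [energy_nrmz hN0] at h2
    rw [← ENNReal.ofReal_natCast]
    refine ENNReal.ofReal_le_ofReal ?_
    have h3 : (X.card : ℝ) ^ (1 - δ) ≤ C * (2 ^ m : ℝ) ^ (2 * s - n * δ) * (N ^ n * ∫ η, ‖G η‖ ^ 2) / α ^ 2 := by
      rw [le_div_iff₀ (by positivity)]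
      exact h2
    have h5 : 0 ≤ 1 / (1 - δ) := by
      have : 0 < 1 - δ := by linarith
      positivity
    calc (X.card : ℝ) = ((X.card : ℝ) ^ (1 - δ)) ^ (1 / (1 - δ)) := by
          rw [← Real.rpow_mul (Nat.cast_nonneg _), mul_one_div, div_self (by linarith), Real.rpow_one]
      _ ≤ W := by
          rw [hW]
          gcongr
  rw [vol_affine hN0 z₀ D]
  calc ENNReal.ofReal ((N ^ n)⁻¹) * volume {y : E n | N⁻¹ • y + z₀ ∈ D}
      ≤ ENNReal.ofReal ((N ^ n)⁻¹) * ENNReal.ofReal W := by gcongr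
    _ = ENNReal.ofReal ((N ^ n)⁻¹ * W) := (ENNReal.ofReal_mul (by positivity)).symm
    _ = _ := by
      congr 1
      have h1δ : 0 < 1 - δ := by linarith
      have e1 : (N ^ n)⁻¹ = (N ^ (-(n * (1 - δ)))) ^ (1 / (1 - δ)) := by
        rw [← Real.rpow_mul hN0.le, ← Real.rpow_natCast, ← Real.rpow_neg hN0.le]
        congr 1
        field_simp
      have hbase : 0 ≤ C * (2 ^ m : ℝ) ^ (2 * s - n * δ) * (N ^ n * ∫ η, ‖G η‖ ^ 2) / α ^ 2 := by positivity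
      rw [e1, hW, ← Real.mul_rpow (by positivity) hbase]
      congr 1
      have e2 : N ^ (-(n * (1 - δ))) * N ^ n = N ^ (n * δ) := by
        rw [← Real.rpow_natCast N n, ← Real.rpow_add hN0]
        congr 1
        ring
      calc N ^ (-(n * (1 - δ))) * (C * (2 ^ m : ℝ) ^ (2 * s - n * δ) * (N ^ n * ∫ η, ‖G η‖ ^ 2) / α ^ 2)
          = C * (N ^ (-(n * (1 - δ))) * N ^ n) * (2 ^ m : ℝ) ^ (2 * s - n * δ) *
            (∫ η, ‖G η‖ ^ 2) / α ^ 2 := by ring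
        _ = _ := by rw [e2]

theorem small {s C δ : ℝ} (hS : SN n s C δ) (hC : 0 < C) (hδ0 : 0 < δ) (hδ1 : δ < 1) :
    ∃ C' : ℝ, 0 < C' ∧ ∀ (k j : ℕ), j ≤ k → ∀ V : E n → ℝ, Integrable V → Measurable V →
      (∀ η, 0 ≤ V η) → (∀ η, V η ≤ 1) → (∀ η, V η ≠ 0 → ∀ i, |η i| ≤ 2 ^ (k + 2)) →
      ∀ (r : ℕ) (A : Set (E n)) (σ : E n → ℝ) (h : E n → ℂ), Adm r A σ h → ∀ (z₀ : E n) (τ₀ : ℝ),
      (∀ x ∈ A, ∀ i, |x i - z₀ i| ≤ ((2 : ℝ) ^ j)⁻¹) →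
      (∀ x ∈ A, τ₀ ≤ σ x ∧ σ x ≤ τ₀ + ((2 : ℝ) ^ (k + j))⁻¹) →
      QE V σ h A ≤ ENNReal.ofReal (C' * (2 ^ k : ℝ) ^ (2 * s) * (2 ^ j : ℝ) ^ (-(2 * s - n * δ))) *
        volume A ^ (1 + δ) := by
  have h1δ : 0 < 1 - δ := by linarith
  set q : ℝ := 2 / (1 - δ) with hq
  have hq1 : 1 < q := by
    rw [hq, lt_div_iff₀ h1δ]
    linarith
  set a : ℝ := 2 * s - n * δ with ha
  refine ⟨(q / (q - 1)) ^ 2 * (C * (2 ^ 5 : ℝ) ^ (n * δ) * (2 ^ 10 : ℝ) ^ a), ?_, ?_⟩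
  · have : 0 < q - 1 := by linarith
    positivity
  intro k j hjk V hV hVm hV0 hV1 hVs r A σ h aA z₀ τ₀ hz hτ
  set B : ℝ := C * (2 ^ (k + 5) : ℝ) ^ (n * δ) * (2 ^ (k - j + 10) : ℝ) ^ a with hB
  have hB0 : 0 < B := by positivity
  have key := dual hq1 hV hVm hV0 hV1 aA (b := √B) (Real.sqrt_pos.2 hB0) (fun G hGm hGb hGs hI t ht => by
    have hGi : Integrable G := by
      obtain ⟨b, hb⟩ := hGb
      refine integrable_of_bdd (R := √(∑ _i : Fin n, (2 ^ (k + 2) : ℝ) ^ 2)) hGm ⟨b, hb⟩ fun η hη => ?_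
      rw [EuclideanSpace.norm_eq]
      refine Real.sqrt_le_sqrt (Finset.sum_le_sum fun i _ => ?_)
      rw [Real.norm_eq_abs]
      exact pow_le_pow_left₀ (abs_nonneg _) (hVs η (hGs η hη) i) 2
    have hm : MeasurableSet {x | x ∈ A ∧ t < ‖evo G x (σ x) 0‖} :=
      aA.mA.inter (measurableSet_lt measurable_const (measurable_evo_time hGi aA.ms).norm)
    refine (weak hS hC hδ1 hjk hGm hGb (fun η hη => hVs η (hGs η hη)) hm (z₀ := z₀) (τ₀ := τ₀)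
      (fun x hx => hz x hx.1) (fun x hx => hτ x hx.1) ht (fun x hx => hx.2.le)).trans (le_of_eq ?_)
    congr 1
    have e1 : (√B * √(∫ η, ‖G η‖ ^ 2) / t) ^ q =
        ((√B * √(∫ η, ‖G η‖ ^ 2) / t) ^ 2) ^ (1 / (1 - δ)) := by
      rw [← Real.rpow_natCast _ 2, ← Real.rpow_mul (by positivity)]
      congr 1
      rw [hq]
      push_cast
      ring
    rw [e1, div_pow, mul_pow, Real.sq_sqrt hB0.le, Real.sq_sqrt hI.le])
  refine key.trans (le_of_eq ?_)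
  have e2 : 2 - 2 / q = 1 + δ := by
    rw [hq, div_div_cancel₀ (by norm_num : (2:ℝ) ≠ 0)]
    ring
  rw [e2]
  congr 2
  rw [mul_pow, Real.sq_sqrt hB0.le, hB]
  have e3 : (2 ^ (k + 5) : ℝ) ^ (n * δ) = (2 ^ 5 : ℝ) ^ (n * δ) * (2 ^ k : ℝ) ^ (n * δ) := by
    rw [← Real.mul_rpow (by positivity) (by positivity), pow_add, mul_comm ((2:ℝ) ^ k)]
  have e4 : (2 ^ (k - j + 10) : ℝ) ^ a = (2 ^ 10 : ℝ) ^ a * (2 ^ k : ℝ) ^ a * (2 ^ j : ℝ) ^ (-a) := by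
    have e5 : (2 ^ (k - j + 10) : ℝ) = 2 ^ 10 * 2 ^ k * (2 ^ j)⁻¹ := by
      have : (2 : ℝ) ^ k = 2 ^ (k - j) * 2 ^ j := by
        rw [← pow_add]
        congr 1
        omega
      rw [this, pow_add]
      field_simp
    rw [e5, Real.mul_rpow (by positivity) (by positivity), Real.mul_rpow (by positivity) (by positivity),
      Real.inv_rpow (by positivity), ← Real.rpow_neg (by positivity)]
  have e6 : (2 ^ k : ℝ) ^ (2 * s) = (2 ^ k : ℝ) ^ (n * δ) * (2 ^ k : ℝ) ^ a := by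
    rw [← Real.rpow_add (by positivity), ha]
    congr 1
    ring
  rw [e3, e4, e6]
  ring

end Vale.Agent.P076.H618
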