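import Vale.Agent.P076.H618.Chain

/-!
# Summation over the scales
-/

open MeasureTheory Complex FourierTransform Filter Topology Set
open scoped ENNReal NNReal

namespace Vale.Agent.P076.H618

open Vale.Agent.P076 Vale.Agent.P076.H791 Vale.Agent.P076.R2.H45 Vale.Agent.P076.H263

section real

variable {m : ℕ → ℕ → ℝ}

lemma mu_nonneg (hm : ∀ k l, 0 ≤ m k l) (k l J j : ℕ) : 0 ≤ mu m k l J j := by
  unfold mu H263.lt
  split_ifs
  · exact le_min (hm _ _) (hm _ _)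
  · exact hm _ _

lemma mu_le (hm : ∀ k l, 0 ≤ m k l)
    (hadd : ∀ k l, m k l = m (k + 1) (2 * l) + m (k + 1) (2 * l + 1)) (k l J : ℕ) {j : ℕ}
    (hj : j ∈ Finset.range (J + 1)) : mu m k l J j ≤ m k l := by
  rw [chain_mass hadd k l J]
  exact Finset.single_le_sum (fun j _ => mu_nonneg hm k l J j) hj

lemma sum_level (hadd : ∀ k l, m k l = m (k + 1) (2 * l) + m (k + 1) (2 * l + 1)) (k : ℕ) :
    ∑ l ∈ Finset.range (2 ^ k), m k l = m 0 0 := by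
  induction k with
  | zero => simp
  | succ k ih =>
    rw [sum_range_two_pow_succ, ← ih]
    exact Finset.sum_congr rfl fun l _ => (hadd k l).symm

lemma sum_level_rpow (hm : ∀ k l, 0 ≤ m k l)
    (hadd : ∀ k l, m k l = m (k + 1) (2 * l) + m (k + 1) (2 * l + 1)) {δ : ℝ} (hδ : 0 < δ) (k : ℕ) :
    ∑ l ∈ Finset.range (2 ^ k), m k l ^ (1 + δ) ≤ m 0 0 ^ (1 + δ) := by
  have h1 : ∀ x : ℝ, 0 ≤ x → x ^ (1 + δ) = x * x ^ δ := fun x hx => by
    rcases hx.eq_or_lt with h | h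
    · rw [← h, Real.zero_rpow (by linarith), zero_mul]
    · rw [Real.rpow_add h, Real.rpow_one]
  rw [h1 _ (hm 0 0)]
  calc ∑ l ∈ Finset.range (2 ^ k), m k l ^ (1 + δ)
      = ∑ l ∈ Finset.range (2 ^ k), m k l * m k l ^ δ := Finset.sum_congr rfl fun l _ => h1 _ (hm _ _)
    _ ≤ ∑ l ∈ Finset.range (2 ^ k), m k l * m 0 0 ^ δ := by
        refine Finset.sum_le_sum fun l hl => mul_le_mul_of_nonneg_left ?_ (hm _ _)
        refine Real.rpow_le_rpow (hm _ _) ?_ hδ.le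
        rw [← sum_level hadd k]
        exact Finset.single_le_sum (fun l _ => hm k l) hl
    _ = m 0 0 * m 0 0 ^ δ := by rw [← Finset.sum_mul, sum_level hadd]

/-- the total of the chains -/
lemma total (hm : ∀ k l, 0 ≤ m k l)
    (hadd : ∀ k l, m k l = m (k + 1) (2 * l) + m (k + 1) (2 * l + 1)) {δ a c σ : ℝ} (hδ : 0 < δ)
    (hc : 0 < c) (hca : c < a) (haσ : a ≤ 2 * σ) (K : ℕ) :
    ∑ k ∈ Finset.range K, ∑ l ∈ Finset.range (2 ^ k), (2 ^ k : ℝ) ^ (-(2 * σ)) *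
      ∑ j ∈ Finset.range (k + 1), (2 ^ c : ℝ) ^ j * ((2 ^ k : ℝ) ^ (2 * σ) * (2 ^ j : ℝ) ^ (-a) *
        mu m k l k j ^ (1 + δ) + mu m k l k j) ≤
    (1 / (δ * (1 - 2 ^ (-(a - c)))) + 1 / (1 - 2 ^ (-(a - c))) + 1 / (1 - 2 ^ (-(2 * σ - c)))) *
      (m 0 0 ^ (1 + δ) + m 0 0) := by
  have hac : 0 < a - c := by linarith
  have hσc : 0 < 2 * σ - c := by linarith
  have h2 : (0 : ℝ) < 2 := by norm_num
  have w1 : ∀ j : ℕ, (2 ^ c : ℝ) ^ j * (2 ^ j : ℝ) ^ (-a) = 2 ^ (-(a - c) * (j : ℝ)) := by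
    intro j
    rw [← Real.rpow_natCast (2 ^ c : ℝ) j, ← Real.rpow_natCast (2 : ℝ) j, ← Real.rpow_mul h2.le,
      ← Real.rpow_mul h2.le, ← Real.rpow_add h2]
    congr 1
    ring
  have w2 : ∀ k : ℕ, (2 ^ k : ℝ) ^ (-(2 * σ)) * (2 ^ c : ℝ) ^ k = 2 ^ (-(2 * σ - c) * (k : ℝ)) := by
    intro k
    rw [← Real.rpow_natCast (2 ^ c : ℝ) k, ← Real.rpow_natCast (2 : ℝ) k, ← Real.rpow_mul h2.le,
      ← Real.rpow_mul h2.le, ← Real.rpow_add h2]
    congr 1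
    ring
  have w3 : ∀ k : ℕ, (2 ^ k : ℝ) ^ (-(2 * σ)) * (2 ^ k : ℝ) ^ (2 * σ) = 1 := by
    intro k
    rw [← Real.rpow_add (by positivity), neg_add_cancel, Real.rpow_zero]
  have hmu := mu_nonneg hm
  -- one term
  have h1 : ∀ k l : ℕ, (2 ^ k : ℝ) ^ (-(2 * σ)) *
      ∑ j ∈ Finset.range (k + 1), (2 ^ c : ℝ) ^ j * ((2 ^ k : ℝ) ^ (2 * σ) * (2 ^ j : ℝ) ^ (-a) *
        mu m k l k j ^ (1 + δ) + mu m k l k j) ≤
      (∑ j ∈ Finset.range k, 2 ^ (-(a - c) * (j : ℝ)) * H263.lt m (k + j) (hv m j k l) ^ (1 + δ)) +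
        2 ^ (-(a - c) * (k : ℝ)) * m k l ^ (1 + δ) + 2 ^ (-(2 * σ - c) * (k : ℝ)) * m k l := by
    intro k l
    have e1 : (2 ^ k : ℝ) ^ (-(2 * σ)) *
      ∑ j ∈ Finset.range (k + 1), (2 ^ c : ℝ) ^ j * ((2 ^ k : ℝ) ^ (2 * σ) * (2 ^ j : ℝ) ^ (-a) *
        mu m k l k j ^ (1 + δ) + mu m k l k j) =
        (∑ j ∈ Finset.range (k + 1), 2 ^ (-(a - c) * (j : ℝ)) * mu m k l k j ^ (1 + δ)) +
        (2 ^ k : ℝ) ^ (-(2 * σ)) * ∑ j ∈ Finset.range (k + 1), (2 ^ c : ℝ) ^ j * mu m k l k j := by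
      rw [Finset.mul_sum, Finset.mul_sum, ← Finset.sum_add_distrib]
      refine Finset.sum_congr rfl fun j _ => ?_
      rw [← w1 j]
      have := w3 k
      linear_combination ((2 ^ c : ℝ) ^ j * (2 ^ j : ℝ) ^ (-a) * mu m k l k j ^ (1 + δ)) * this
    rw [e1]
    refine add_le_add ?_ ?_
    · rw [Finset.sum_range_succ]
      refine add_le_add (le_of_eq ?_) ?_
      · refine Finset.sum_congr rfl fun j hj => ?_
        rw [mu, if_pos (Finset.mem_range.1 hj)]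
      · refine mul_le_mul_of_nonneg_left ?_ (by positivity)
        exact Real.rpow_le_rpow (hmu _ _ _ _) (mu_le hm hadd k l k (Finset.self_mem_range_succ k))
          (by linarith)
    · rw [← w2 k, mul_assoc]
      refine mul_le_mul_of_nonneg_left ?_ (by positivity)
      rw [chain_mass hadd k l k, Finset.mul_sum]
      refine Finset.sum_le_sum fun j hj => mul_le_mul_of_nonneg_right ?_ (hmu _ _ _ _)
      refine pow_le_pow_right₀ (Real.one_le_rpow (by norm_num) hc.le) ?_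
      have := Finset.mem_range.1 hj
      omega
  refine (Finset.sum_le_sum fun k _ => Finset.sum_le_sum fun l _ => h1 k l).trans ?_
  simp_rw [Finset.sum_add_distrib]
  have t1 : ∑ k ∈ Finset.range K, ∑ l ∈ Finset.range (2 ^ k), ∑ j ∈ Finset.range k,
      (2 : ℝ) ^ (-(a - c) * (j : ℝ)) * H263.lt m (k + j) (hv m j k l) ^ (1 + δ) ≤
      1 / (δ * (1 - 2 ^ (-(a - c)))) * m 0 0 ^ (1 + δ) := by
    refine le_trans ?_ (tree_sum_le hm hadd hδ hac K K)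
    refine Finset.sum_le_sum fun k hk => Finset.sum_le_sum fun l _ => ?_
    refine Finset.sum_le_sum_of_subset_of_nonneg ?_ fun j _ _ => ?_
    · intro j hj
      rw [Finset.mem_range] at hj hk ⊢
      omega
    · refine mul_nonneg (by positivity) (Real.rpow_nonneg ?_ _)
      exact le_min (hm _ _) (hm _ _)
  have t2 : ∑ k ∈ Finset.range K, ∑ l ∈ Finset.range (2 ^ k),
      (2 : ℝ) ^ (-(a - c) * (k : ℝ)) * m k l ^ (1 + δ) ≤ 1 / (1 - 2 ^ (-(a - c))) * m 0 0 ^ (1 + δ) := by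
    calc ∑ k ∈ Finset.range K, ∑ l ∈ Finset.range (2 ^ k), (2 : ℝ) ^ (-(a - c) * (k : ℝ)) * m k l ^ (1 + δ)
        ≤ ∑ k ∈ Finset.range K, (2 : ℝ) ^ (-(a - c) * (k : ℝ)) * m 0 0 ^ (1 + δ) := by
          refine Finset.sum_le_sum fun k _ => ?_
          rw [← Finset.mul_sum]
          exact mul_le_mul_of_nonneg_left (sum_level_rpow hm hadd hδ k) (by positivity)
      _ ≤ _ := by
          rw [← Finset.sum_mul]
          exact mul_le_mul_of_nonneg_right (sum_two_rpow_neg_le hac K) (Real.rpow_nonneg (hm _ _) _)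
  have t3 : ∑ k ∈ Finset.range K, ∑ l ∈ Finset.range (2 ^ k),
      (2 : ℝ) ^ (-(2 * σ - c) * (k : ℝ)) * m k l ≤ 1 / (1 - 2 ^ (-(2 * σ - c))) * m 0 0 := by
    calc ∑ k ∈ Finset.range K, ∑ l ∈ Finset.range (2 ^ k), (2 : ℝ) ^ (-(2 * σ - c) * (k : ℝ)) * m k l
        = ∑ k ∈ Finset.range K, (2 : ℝ) ^ (-(2 * σ - c) * (k : ℝ)) * m 0 0 := by
          refine Finset.sum_congr rfl fun k _ => ?_
          rw [← Finset.mul_sum, sum_level hadd]
      _ ≤ _ := by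
          rw [← Finset.sum_mul]
          exact mul_le_mul_of_nonneg_right (sum_two_rpow_neg_le hσc K) (hm _ _)
  have g1 : 0 < 1 - (2 : ℝ) ^ (-(a - c)) := by
    have : (2 : ℝ) ^ (-(a - c)) < 1 := Real.rpow_lt_one_of_one_lt_of_neg (by norm_num) (by linarith)
    linarith
  have g2 : 0 < 1 - (2 : ℝ) ^ (-(2 * σ - c)) := by
    have : (2 : ℝ) ^ (-(2 * σ - c)) < 1 := Real.rpow_lt_one_of_one_lt_of_neg (by norm_num) (by linarith)
    linarith
  have p0 : 0 ≤ m 0 0 := hm 0 0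
  have p1 : 0 ≤ m 0 0 ^ (1 + δ) := Real.rpow_nonneg p0 _
  have q1 : 0 < 1 / (δ * (1 - (2 : ℝ) ^ (-(a - c)))) := by positivity
  have q2 : 0 < 1 / (1 - (2 : ℝ) ^ (-(a - c))) := by positivity
  have q3 : 0 < 1 / (1 - (2 : ℝ) ^ (-(2 * σ - c))) := by positivity
  have r1 := mul_nonneg q1.le p0
  have r2 := mul_nonneg q2.le p0
  have r3 := mul_nonneg q3.le p1
  refine (add_le_add (add_le_add t1 t2) t3).trans ?_
  nlinarith

end real

variable {n : ℕ} {V : ℕ → E n → ℝ} {A₀ C₀ : ℝ} {s : E n → ℝ} {h : E n → ℂ} {A : Set (E n)} {r : ℕ}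

/-- energy of one node -/
theorem node {σ δ c : ℝ} (hδ : 0 < δ) (hc : 0 < c) (hK : KB V A₀ C₀) {C : ℝ≥0}
    (hcube : ∀ (k j : ℕ), j ≤ k → ∀ (r : ℕ) (A : Set (E n)) (s : E n → ℝ) (h : E n → ℂ),
      Adm r A s h → ∀ τ₀ : ℝ, (∀ x ∈ A, τ₀ ≤ s x ∧ s x ≤ τ₀ + ((2 : ℝ) ^ (k + j))⁻¹) →
      QE (V k) s h A ≤ C * (ENNReal.ofReal ((2 ^ k : ℝ) ^ (2 * σ) * (2 ^ j : ℝ) ^ (-(2 * σ - n * δ))) *
        volume A ^ (1 + δ)) + C * volume A)
    (a : Adm r A s h) (hA : ∀ x ∈ A, 0 ≤ s x ∧ s x < 1) (k l : ℕ) :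
    QE (V k) s h (F A s k l) ≤ ENNReal.ofReal ((1 - (2 ^ c : ℝ)⁻¹)⁻¹ * (C *
      ∑ j ∈ Finset.range (k + 1), (2 ^ c : ℝ) ^ j * ((2 ^ k : ℝ) ^ (2 * σ) *
        (2 ^ j : ℝ) ^ (-(2 * σ - n * δ)) * mu (ms A s) k l k j ^ (1 + δ) + mu (ms A s) k l k j))) := by
  have hb : 1 < (2 : ℝ) ^ c := Real.one_lt_rpow (by norm_num) hc
  have h1 : ((2 : ℝ) ^ c)⁻¹ < 1 := inv_lt_one_of_one_lt₀ hb
  have h2 : 0 < 1 - ((2 : ℝ) ^ c)⁻¹ := by linarith
  refine (QE_cs (hK.meas k) (fun η => chain_Phi a k l k η) (fun j => a_pc a k l k j) hb).trans ?_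
  rw [ENNReal.ofReal_mul (by positivity)]
  gcongr
  have h3 : ∀ j ∈ Finset.range (k + 1), ENNReal.ofReal ((2 ^ c : ℝ) ^ j) * QE (V k) s h (pc A s k l k j) ≤
      ENNReal.ofReal (C * ((2 ^ c : ℝ) ^ j * ((2 ^ k : ℝ) ^ (2 * σ) *
        (2 ^ j : ℝ) ^ (-(2 * σ - n * δ)) * mu (ms A s) k l k j ^ (1 + δ) + mu (ms A s) k l k j))) := by
    intro j hj
    have hjk : j ≤ k := by
      have := Finset.mem_range.1 hj
      omega
    have hap := a_pc a k l k j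
    have hmu := mu_nonneg (ms_nonneg A s) k l k j
    have hvol : volume (pc A s k l k j) = ENNReal.ofReal (mu (ms A s) k l k j) := by
      rw [← vol_pc, ENNReal.ofReal_toReal hap.vol.ne]
    have htime : ∃ τ₀ : ℝ, ∀ x ∈ pc A s k l k j, τ₀ ≤ s x ∧ s x ≤ τ₀ + ((2 : ℝ) ^ (k + j))⁻¹ := by
      unfold pc
      split_ifs with hjk'
      · refine ⟨(lg (ms A s) j k l : ℝ) * ((2 : ℝ) ^ (k + j + 1))⁻¹, fun x hx => ?_⟩
        have h4 := F_time hA hx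
        refine ⟨h4.1, h4.2.trans ?_⟩
        have h5 : ((2 : ℝ) ^ (k + j + 1))⁻¹ ≤ ((2 : ℝ) ^ (k + j))⁻¹ :=
          inv_anti₀ (by positivity) (pow_le_pow_right₀ (by norm_num) (by omega))
        linarith
      · exact ⟨_, fun x hx => F_time hA hx⟩
    obtain ⟨τ₀, hτ⟩ := htime
    have h4 := hcube k j hjk r _ s h hap τ₀ hτ
    rw [hvol, ENNReal.ofReal_rpow_of_nonneg hmu (by linarith), ← ENNReal.ofReal_mul (by positivity),
      ← mul_add, ← ENNReal.ofReal_add (by positivity) hmu] at h4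
    calc ENNReal.ofReal ((2 ^ c : ℝ) ^ j) * QE (V k) s h (pc A s k l k j)
        ≤ ENNReal.ofReal ((2 ^ c : ℝ) ^ j) * (C * ENNReal.ofReal ((2 ^ k : ℝ) ^ (2 * σ) *
          (2 ^ j : ℝ) ^ (-(2 * σ - n * δ)) * mu (ms A s) k l k j ^ (1 + δ) + mu (ms A s) k l k j)) := by
          gcongr
      _ = _ := by
          rw [mul_left_comm, ← ENNReal.ofReal_mul (by positivity), ENNReal.ofReal_mul (p := (C : ℝ))
            (NNReal.coe_nonneg C), ENNReal.ofReal_coe_nnreal]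
  refine (Finset.sum_le_sum h3).trans ?_
  rw [← ENNReal.ofReal_sum_of_nonneg, ← Finset.mul_sum]
  intro j _
  have hmu := mu_nonneg (ms_nonneg A s) k l k j
  positivity

/-- **the sum over the scales**, for times in `[0,1)` -/
theorem scales {σ δ : ℝ} (hδ : 0 < δ) (hσδ : n * δ < 2 * σ) (hσ : 0 < σ) (hK : KB V A₀ C₀) {C : ℝ≥0}
    (hcube : ∀ (k j : ℕ), j ≤ k → ∀ (r : ℕ) (A : Set (E n)) (s : E n → ℝ) (h : E n → ℂ),
      Adm r A s h → ∀ τ₀ : ℝ, (∀ x ∈ A, τ₀ ≤ s x ∧ s x ≤ τ₀ + ((2 : ℝ) ^ (k + j))⁻¹) →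
      QE (V k) s h A ≤ C * (ENNReal.ofReal ((2 ^ k : ℝ) ^ (2 * σ) * (2 ^ j : ℝ) ^ (-(2 * σ - n * δ))) *
        volume A ^ (1 + δ)) + C * volume A) (r : ℕ) :
    ∃ C' : ℝ≥0, ∀ (A : Set (E n)) (s : E n → ℝ) (h : E n → ℂ), Adm r A s h →
      (∀ x ∈ A, 0 ≤ s x ∧ s x < 1) → ∀ K : ℕ,
        ∑ k ∈ Finset.range K, ENNReal.ofReal ((2 ^ k : ℝ) ^ (-(2 * σ))) * QE (V k) s h A ≤
          C' * volume A := by
  obtain ⟨Ct, hCt⟩ := time_step hK r
  set a₁ : ℝ := 2 * σ - n * δ with ha₁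
  have ha₁0 : 0 < a₁ := by linarith
  set c : ℝ := a₁ / 2 with hc
  have hc0 : 0 < c := by positivity
  have hca : c < a₁ := by rw [hc]; linarith
  have haσ : a₁ ≤ 2 * σ := by
    have : 0 ≤ n * δ := by positivity
    linarith
  have hb : 1 < (2 : ℝ) ^ c := Real.one_lt_rpow (by norm_num) hc0
  have hb1 : ((2 : ℝ) ^ c)⁻¹ < 1 := inv_lt_one_of_one_lt₀ hb
  have hb2 : 0 < 1 - ((2 : ℝ) ^ c)⁻¹ := by linarith
  set L : ℝ := (1 - (2 ^ c : ℝ)⁻¹)⁻¹ with hL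
  have hL0 : 0 < L := by positivity
  set P : ℝ := 1 / (δ * (1 - 2 ^ (-(a₁ - c)))) + 1 / (1 - 2 ^ (-(a₁ - c))) +
    1 / (1 - 2 ^ (-(2 * σ - c))) with hP
  set bb : ℝ := (volume (Metric.ball (0 : E n) r)).toReal with hbb
  set Cf : ℝ := Ct * (L * C * (P * (bb ^ δ + 1))) + Ct * 2 with hCf
  refine ⟨Cf.toNNReal, fun A s h a hA K => ?_⟩
  set m : ℕ → ℕ → ℝ := ms A s with hm
  have hm0 : ∀ k l, 0 ≤ m k l := ms_nonneg A s
  have hadd : ∀ k l, m k l = m (k + 1) (2 * l) + m (k + 1) (2 * l + 1) := fun k l => ms_split a k l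
  have hF0 : F A s 0 0 = A := by
    refine inter_eq_left.2 fun x hx => ?_
    have h1 := hA x hx
    change tc s 0 x = 0
    unfold tc
    rw [Nat.floor_eq_zero]
    simpa using h1.2
  have hvA : volume A = ENNReal.ofReal (m 0 0) := by
    rw [hm, ms, hF0, ENNReal.ofReal_toReal a.vol.ne]
  have hmb : m 0 0 ≤ bb := by
    rw [hm, ms, hF0]
    exact ENNReal.toReal_mono measure_ball_lt_top.ne (measure_mono a.sub)
  set w : ℕ → ℝ := fun k => (2 ^ k : ℝ) ^ (-(2 * σ)) with hw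
  have hw0 : ∀ k, 0 ≤ w k := fun k => by positivity
  have hw1 : ∀ k, w k ≤ 1 := fun k =>
    Real.rpow_le_one_of_one_le_of_nonpos (one_le_pow₀ (by norm_num)) (by linarith)
  set S : ℕ → ℕ → ℝ := fun k l => ∑ j ∈ Finset.range (k + 1), (2 ^ c : ℝ) ^ j *
    ((2 ^ k : ℝ) ^ (2 * σ) * (2 ^ j : ℝ) ^ (-a₁) * mu m k l k j ^ (1 + δ) + mu m k l k j) with hS
  have hS0 : ∀ k l, 0 ≤ S k l := fun k l => Finset.sum_nonneg fun j _ => by
    have := mu_nonneg hm0 k l k j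
    positivity
  have h1 : ∀ k, ENNReal.ofReal (w k) * QE (V k) s h A ≤
      ENNReal.ofReal (Ct * (L * C * ∑ l ∈ Finset.range (2 ^ k), w k * S k l) +
        Ct * (((2 : ℝ) ^ k)⁻¹ * m 0 0)) := by
    intro k
    have h2 := hCt k A s h a hA
    have h3 : ∑ l ∈ Finset.range (2 ^ k), QE (V k) s h (F A s k l) ≤
        ENNReal.ofReal (L * C * ∑ l ∈ Finset.range (2 ^ k), S k l) := by
      rw [Finset.mul_sum, ENNReal.ofReal_sum_of_nonneg fun l _ => by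
        have := hS0 k l
        positivity]
      refine Finset.sum_le_sum fun l _ => (node hδ hc0 hK hcube a hA k l).trans (le_of_eq ?_)
      rw [mul_assoc]
    calc ENNReal.ofReal (w k) * QE (V k) s h A
        ≤ ENNReal.ofReal (w k) * (Ct * ENNReal.ofReal (L * C * ∑ l ∈ Finset.range (2 ^ k), S k l) +
          Ct * (ENNReal.ofReal (((2 : ℝ) ^ k)⁻¹) * ENNReal.ofReal (m 0 0))) := by
          rw [← hvA]
          refine mul_le_mul_right (h2.trans ?_) _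
          gcongr
      _ = ENNReal.ofReal (w k * (Ct * (L * C * ∑ l ∈ Finset.range (2 ^ k), S k l) +
          Ct * (((2 : ℝ) ^ k)⁻¹ * m 0 0))) := by
          have g1 : 0 ≤ L * C * ∑ l ∈ Finset.range (2 ^ k), S k l :=
            mul_nonneg (by positivity) (Finset.sum_nonneg fun l _ => hS0 k l)
          have g2 : 0 ≤ ((2 : ℝ) ^ k)⁻¹ * m 0 0 := mul_nonneg (by positivity) (hm0 _ _)
          rw [ENNReal.ofReal_mul (hw0 k), ENNReal.ofReal_add (by positivity) (by positivity),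
            ENNReal.ofReal_mul (NNReal.coe_nonneg Ct), ENNReal.ofReal_mul (NNReal.coe_nonneg Ct),
            ENNReal.ofReal_mul (by positivity : 0 ≤ ((2 : ℝ) ^ k)⁻¹), ENNReal.ofReal_coe_nnreal]
      _ ≤ _ := by
          refine ENNReal.ofReal_le_ofReal ?_
          rw [mul_add]
          refine add_le_add (le_of_eq ?_) ?_
          · rw [← Finset.mul_sum]
            ring
          · refine mul_le_of_le_one_left ?_ (hw1 k)
            have := hm0 0 0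
            positivity
  refine (Finset.sum_le_sum fun k _ => h1 k).trans ?_
  rw [← ENNReal.ofReal_sum_of_nonneg (fun k _ => by
    have g1 : 0 ≤ ∑ l ∈ Finset.range (2 ^ k), w k * S k l :=
      Finset.sum_nonneg fun l _ => mul_nonneg (hw0 k) (hS0 k l)
    have := hm0 0 0
    positivity), hvA]
  have hCf0 : 0 ≤ Cf := by
    have g1 : 0 < 1 - (2 : ℝ) ^ (-(a₁ - c)) := by
      have : (2 : ℝ) ^ (-(a₁ - c)) < 1 := Real.rpow_lt_one_of_one_lt_of_neg (by norm_num) (by linarith)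
      linarith
    have g2 : 0 < 1 - (2 : ℝ) ^ (-(2 * σ - c)) := by
      have : (2 : ℝ) ^ (-(2 * σ - c)) < 1 := Real.rpow_lt_one_of_one_lt_of_neg (by norm_num) (by linarith)
      linarith
    have g3 : 0 ≤ bb := ENNReal.toReal_nonneg
    positivity
  have e1 : ((Cf.toNNReal : ℝ≥0) : ℝ≥0∞) = ENNReal.ofReal Cf := rfl
  rw [e1, ← ENNReal.ofReal_mul hCf0]
  refine ENNReal.ofReal_le_ofReal ?_
  have h4 := total hm0 hadd hδ hc0 hca haσ K
  have h5 : ∑ k ∈ Finset.range K, ∑ l ∈ Finset.range (2 ^ k), w k * S k l ≤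
      P * (m 0 0 ^ (1 + δ) + m 0 0) := h4
  have h6 : ∑ k ∈ Finset.range K, ((2 : ℝ) ^ k)⁻¹ ≤ 2 := by
    have e : ∀ k : ℕ, ((2 : ℝ) ^ k)⁻¹ = (1 / 2) ^ k := fun k => by rw [one_div, inv_pow]
    simp_rw [e]
    have h7 := (summable_geometric_two).sum_le_tsum (Finset.range K) fun j _ => by positivity
    rwa [tsum_geometric_two] at h7
  have hmp : m 0 0 ^ (1 + δ) ≤ bb ^ δ * m 0 0 := by
    rcases (hm0 0 0).eq_or_lt with h8 | h8
    · rw [← h8, Real.zero_rpow (by linarith), mul_zero]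
    · rw [Real.rpow_add h8, Real.rpow_one, mul_comm]
      exact mul_le_mul_of_nonneg_right (Real.rpow_le_rpow h8.le hmb hδ.le) h8.le
  have hP0 : 0 ≤ P := by
    have g1 : 0 < 1 - (2 : ℝ) ^ (-(a₁ - c)) := by
      have : (2 : ℝ) ^ (-(a₁ - c)) < 1 := Real.rpow_lt_one_of_one_lt_of_neg (by norm_num) (by linarith)
      linarith
    have g2 : 0 < 1 - (2 : ℝ) ^ (-(2 * σ - c)) := by
      have : (2 : ℝ) ^ (-(2 * σ - c)) < 1 := Real.rpow_lt_one_of_one_lt_of_neg (by norm_num) (by linarith)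
      linarith
    positivity
  rw [Finset.sum_add_distrib, ← Finset.mul_sum, ← Finset.mul_sum, ← Finset.mul_sum, ← Finset.sum_mul]
  calc Ct * (L * C * ∑ k ∈ Finset.range K, ∑ l ∈ Finset.range (2 ^ k), w k * S k l) +
        Ct * ((∑ k ∈ Finset.range K, ((2 : ℝ) ^ k)⁻¹) * m 0 0)
      ≤ Ct * (L * C * (P * (bb ^ δ * m 0 0 + m 0 0))) + Ct * (2 * m 0 0) := by
        have := hm0 0 0
        gcongr
        exact h5.trans (by gcongr)
    _ = Cf * m 0 0 := by rw [hCf]; ring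

end Vale.Agent.P076.H618
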