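import Vale.Agent.P076.H618.Cube
import Vale.Agent.P076.H263.Tree

/-!
# Localisation in time and the chain of the heavier children
-/

open MeasureTheory Complex FourierTransform Filter Topology Set
open scoped ENNReal NNReal

namespace Vale.Agent.P076.H618

open Vale.Agent.P076 Vale.Agent.P076.H791 Vale.Agent.P076.R2.H45 Vale.Agent.P076.H263

variable {n : ℕ} {V : ℕ → E n → ℝ} {A₀ C₀ : ℝ} {s : E n → ℝ} {h : E n → ℂ} {A : Set (E n)} {r : ℕ}

/-- the time cell of level `k` -/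
noncomputable def tc (s : E n → ℝ) (k : ℕ) (x : E n) : ℕ := ⌊(2 : ℝ) ^ k * s x⌋₊

lemma measurable_tc (hs : Measurable s) (k : ℕ) : Measurable (tc s k) :=
  Nat.measurable_floor.comp (hs.const_mul _)

lemma tc_half (s : E n → ℝ) (k : ℕ) (x : E n) : tc s (k + 1) x / 2 = tc s k x := by
  unfold tc
  rw [← Nat.floor_div_ofNat]
  congr 1
  rw [pow_succ]
  ring

/-- the set of the points with time in the `l`-th interval of level `k` -/
def F (A : Set (E n)) (s : E n → ℝ) (k l : ℕ) : Set (E n) := cell A (tc s k) l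

lemma mF (a : Adm r A s h) (k l : ℕ) : MeasurableSet (F A s k l) :=
  a.mA.inter (measurable_tc a.ms k (measurableSet_singleton l))

lemma aF (a : Adm r A s h) (k l : ℕ) : Adm r (F A s k l) s h := Adm.mono a (mF a k l) inter_subset_left

lemma F_time (hA : ∀ x ∈ A, 0 ≤ s x ∧ s x < 1) {k l : ℕ} {x : E n} (hx : x ∈ F A s k l) :
    (l : ℝ) * ((2 : ℝ) ^ k)⁻¹ ≤ s x ∧ s x ≤ (l : ℝ) * ((2 : ℝ) ^ k)⁻¹ + ((2 : ℝ) ^ k)⁻¹ := by
  have h2 : (0 : ℝ) < 2 ^ k := by positivity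
  have e : ⌊(2 : ℝ) ^ k * s x⌋₊ = l := hx.2
  have h0 : 0 ≤ (2 : ℝ) ^ k * s x := by
    have := (hA x hx.1).1
    positivity
  have h3 := Nat.floor_le h0
  have h4 := Nat.lt_floor_add_one ((2 : ℝ) ^ k * s x)
  rw [e] at h3 h4
  constructor
  · rw [← div_eq_mul_inv, div_le_iff₀ h2]
    linarith
  · have : (l : ℝ) * ((2 : ℝ) ^ k)⁻¹ + ((2 : ℝ) ^ k)⁻¹ = (l + 1) / 2 ^ k := by
      field_simp
    rw [this, le_div_iff₀ h2]
    linarith

lemma tc_lt (hA : ∀ x ∈ A, 0 ≤ s x ∧ s x < 1) (k : ℕ) : ∀ x ∈ A, tc s k x ∈ Finset.range (2 ^ k) := by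
  intro x hx
  rw [Finset.mem_range]
  have h2 : (0 : ℝ) < 2 ^ k := by positivity
  have h1 := hA x hx
  unfold tc
  rw [Nat.floor_lt (by have := h1.1; positivity)]
  push_cast
  nlinarith [h1.2]

/-- **localisation in time** -/
theorem time_step (hK : KB V A₀ C₀) (r : ℕ) : ∃ C : ℝ≥0, ∀ (k : ℕ) (A : Set (E n)) (s : E n → ℝ)
    (h : E n → ℂ), Adm r A s h → (∀ x ∈ A, 0 ≤ s x ∧ s x < 1) →
      QE (V k) s h A ≤ C * ∑ l ∈ Finset.range (2 ^ k), QE (V k) s h (F A s k l) +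
        C * (ENNReal.ofReal (((2 : ℝ) ^ k)⁻¹) * volume A) := by
  classical
  set M : ℕ := ⌈A₀ * (2 * r)⌉₊ + 1 with hM
  have hMA : A₀ * (2 * r) ≤ M := (Nat.le_ceil _).trans (by rw [hM]; push_cast; linarith)
  have hM1 : (1 : ℝ) ≤ M := by
    rw [hM]; push_cast
    have : (0 : ℝ) ≤ ⌈A₀ * (2 * r)⌉₊ := Nat.cast_nonneg _
    linarith
  have hvb : volume (Metric.ball (0 : E n) (2 * r)) < ⊤ := measure_ball_lt_top
  refine ⟨2 * (2 * M + 1 : ℕ) + C₀.toNNReal * (volume (Metric.ball (0 : E n) (2 * r))).toNNReal, ?_⟩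
  intro k A s h a hA
  have h2k : (0 : ℝ) < 2 ^ k := by positivity
  set near : ℕ → ℕ → Prop := fun l l' => l ≤ l' + M ∧ l' ≤ l + M with hnear
  have hsym : ∀ l l', near l l' → near l' l := fun l l' hl => ⟨hl.2, hl.1⟩
  have hcard : ∀ l ∈ Finset.range (2 ^ k), ((Finset.range (2 ^ k)).filter (near l)).card ≤ 2 * M + 1 := by
    intro l _
    have h1 : (Finset.range (2 ^ k)).filter (near l) ⊆ Finset.Icc (l - M) (l + M) := by
      intro l' hl'
      rw [Finset.mem_filter] at hl'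
      rw [Finset.mem_Icc]
      have h2 := hl'.2
      simp only [hnear] at h2
      omega
    refine (Finset.card_le_card h1).trans ?_
    rw [Nat.card_Icc]
    omega
  set B : E n → ℝ≥0∞ := fun _ => ENNReal.ofReal (C₀ * ((2 : ℝ) ^ k)⁻¹) with hB
  have hC0 : 0 < C₀ := lt_of_lt_of_le one_pos hK.C1
  have hA0 : 0 < A₀ := lt_of_lt_of_le one_pos hK.A1
  have hfar : ∀ x ∈ A, ∀ y ∈ A, ¬ near (tc s k x) (tc s k y) →
      ‖Ker (V k) (x - y) (s x - s y)‖ₑ ≤ B (x - y) := by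
    intro x hx y hy hn
    have hx0 := (hA x hx).1
    have hy0 := (hA y hy).1
    have f1 : (tc s k x : ℝ) ≤ 2 ^ k * s x := Nat.floor_le (by positivity)
    have f2 : (2 : ℝ) ^ k * s x < tc s k x + 1 := Nat.lt_floor_add_one _
    have f3 : (tc s k y : ℝ) ≤ 2 ^ k * s y := Nat.floor_le (by positivity)
    have f4 : (2 : ℝ) ^ k * s y < tc s k y + 1 := Nat.lt_floor_add_one _
    have h1 : (M : ℝ) ≤ |s x - s y| * 2 ^ k := by
      have e : |s x - s y| * 2 ^ k = |(2 : ℝ) ^ k * s x - 2 ^ k * s y| := by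
        rw [← mul_sub, abs_mul, abs_of_pos h2k, mul_comm]
      rw [e]
      simp only [hnear, not_and_or, not_le] at hn
      rcases hn with g | g
      · have g2 : (tc s k y : ℝ) + M + 1 ≤ tc s k x := by exact_mod_cast g
        refine le_trans ?_ (le_abs_self _)
        linarith
      · have g2 : (tc s k x : ℝ) + M + 1 ≤ tc s k y := by exact_mod_cast g
        refine le_trans ?_ (neg_le_abs _)
        linarith
    have hz : ‖x - y‖ ≤ 2 * r := by
      have hx' := a.sub hx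
      have hy' := a.sub hy
      rw [mem_ball_zero_iff] at hx' hy'
      calc ‖x - y‖ ≤ ‖x‖ + ‖y‖ := norm_sub_le _ _
          _ ≤ r + r := add_le_add hx'.le hy'.le
          _ = 2 * r := by ring
    have h2 : A₀ * ‖x - y‖ ≤ |s x - s y| * 2 ^ k := by
      calc A₀ * ‖x - y‖ ≤ A₀ * (2 * r) := by gcongr
        _ ≤ M := hMA
        _ ≤ _ := h1
    have h3 := hK.ker1 k _ _ h2
    have h4 : (2 : ℝ) ^ k ≤ 4 ^ k * |s x - s y| := by
      have e : (4 : ℝ) ^ k = 2 ^ k * 2 ^ k := by rw [← mul_pow]; norm_num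
      rw [e]
      nlinarith
    have h5 : ‖Ker (V k) (x - y) (s x - s y)‖ ≤ C₀ * ((2 : ℝ) ^ k)⁻¹ := by
      have h6 : ‖Ker (V k) (x - y) (s x - s y)‖ * (2 ^ k) ^ (n + 1) ≤ C₀ * (2 ^ k) ^ n :=
        le_trans (by gcongr) h3
      rw [pow_succ, ← mul_assoc, mul_right_comm] at h6
      have h7 : (0 : ℝ) < (2 ^ k) ^ n := by positivity
      have h8 := le_of_mul_le_mul_right h6 h7
      rw [← div_eq_mul_inv, le_div_iff₀ h2k]
      exact h8
    rw [← ofReal_norm]
    exact ENNReal.ofReal_le_ofReal h5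
  have hcell : ∀ l ∈ Finset.range (2 ^ k), MeasurableSet (cell A (tc s k) l) := fun l _ => mF a k l
  have key := ao (hK.int k) (hK.meas k) (hK.nn k) a hcell (tc_lt hA k) near hsym _ hcard
    (measurable_const : Measurable B) hfar
  have herr : ∫⁻ z in Metric.ball 0 (2 * r), B z ≤
      (C₀.toNNReal : ℝ≥0∞) * (volume (Metric.ball (0 : E n) (2 * r))).toNNReal *
        ENNReal.ofReal (((2 : ℝ) ^ k)⁻¹) := by
    simp only [hB]
    rw [setLIntegral_const, ENNReal.ofReal_mul hC0.le, ENNReal.coe_toNNReal hvb.ne]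
    refine le_of_eq ?_
    change ENNReal.ofReal C₀ * _ * _ = ENNReal.ofReal C₀ * _ * _
    ring
  refine key.trans ?_
  push_cast
  gcongr ?_ + ?_
  · gcongr ?_ * ?_
    · exact le_self_add
    · exact le_rfl
  · calc (∫⁻ z in Metric.ball 0 (2 * r), B z) * volume A
        ≤ ((C₀.toNNReal : ℝ≥0∞) * (volume (Metric.ball (0 : E n) (2 * r))).toNNReal *
          ENNReal.ofReal (((2 : ℝ) ^ k)⁻¹)) * volume A := by gcongr
      _ = ((C₀.toNNReal : ℝ≥0∞) * (volume (Metric.ball (0 : E n) (2 * r))).toNNReal) *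
          (ENNReal.ofReal (((2 : ℝ) ^ k)⁻¹) * volume A) := by ring
      _ ≤ _ := by
          gcongr
          exact le_add_self

end Vale.Agent.P076.H618
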